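import Vale.Agent.P220Z.Top.B5

/-!
# P220: the bases `S^(2a-1) × S^(2b-1)`
-/

open Set
open scoped ContDiff RealInnerProductSpace

namespace Vale.Agent.N220

open Vale.Agent.P220.R2 Vale.Agent.P220Z.Cn Vale.Agent.P220Z.Def Vale.Agent.P220Z.Top
  Vale.Agent.P220Z.Top.Bf
open Vale.Agent.P220.R2.H57 (Tan IsSubmanifold IsClosedManifold)

variable (a b : ℕ)

/-- the ambient space -/
abbrev EB : Type := WithLp 2 (EuclideanSpace ℂ (Fin a) × EuclideanSpace ℂ (Fin b))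

/-- the base -/
def BB : Set (EB a b) := {x | ‖x.fst‖ = 1 ∧ ‖x.snd‖ = 1}

/-- the free action on the base -/
noncomputable def βB : G5 →* (EB a b ≃ₗᵢ[ℝ] EB a b) where
  toFun g := LinearIsometryEquiv.withLpProdCongr 2 (rot a (om g.toAdd.1)) (rot b (om g.toAdd.2))
  map_one' := by
    ext x : 1
    simp [om]
    rfl
  map_mul' g h := by
    ext x : 1
    simp [om, AddChar.map_add_eq_mul, smul_smul]

variable {a b}

theorem closedB (ha : 1 ≤ a) (hb : 1 ≤ b) : IsClosedManifold (2 * a + 2 * b - 2) (BB a b) := by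
  have h := stBase _ (EuclideanSpace ℂ (Fin b)) (2 * a - 2 + 1) (2 * b - 2) _
    (sphere_closed (EuclideanSpace ℂ (Fin a)) (2 * a - 2) (by rw [finrank_eq]; omega))
    (by rw [finrank_eq]; omega)
  rwa [show 2 * a - 2 + 1 + (2 * b - 2 + 1) = 2 * a + 2 * b - 2 by omega] at h

theorem smB_fst : ContDiff ℝ ∞ fun x : EB a b => x.fst :=
  (WithLp.fstL 2 ℝ (EuclideanSpace ℂ (Fin a)) (EuclideanSpace ℂ (Fin b))).contDiff

theorem smB_snd : ContDiff ℝ ∞ fun x : EB a b => x.snd :=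
  (WithLp.sndL 2 ℝ (EuclideanSpace ℂ (Fin a)) (EuclideanSpace ℂ (Fin b))).contDiff

theorem βB_fst (g : G5) (x : EB a b) :
    (βB a b g x).fst = ((om g.toAdd.1 : Circle) : ℂ) • x.fst := rfl

theorem βB_snd (g : G5) (x : EB a b) :
    (βB a b g x).snd = ((om g.toAdd.2 : Circle) : ℂ) • x.snd := rfl

theorem curveB {s : EB a b → ℝ} (hs : ContDiff ℝ ∞ s) {x : EB a b}
    (h : ∀ u ∈ Tan (BB a b) x, fderiv ℝ s x u = 0)
    {c : ℝ → EuclideanSpace ℂ (Fin a) × EuclideanSpace ℂ (Fin b)} (hc : ContDiff ℝ ∞ c)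
    (hB : ∀ t, WithLp.toLp 2 (c t) ∈ BB a b) (h0 : WithLp.toLp 2 (c 0) = x) :
    HasDerivAt (fun t => s (WithLp.toLp 2 (c t))) 0 0 := by
  have h1 : ContDiff ℝ ∞ fun t => (WithLp.toLp 2 (c t) : EB a b) :=
    (WithLp.prodContinuousLinearEquiv 2 ℝ _ _).symm.contDiff.comp hc
  have h2 : HasFDerivAt s (fderiv ℝ s x) (WithLp.toLp 2 (c 0)) :=
    h0 ▸ (hs.differentiable (by simp) _).hasFDerivAt
  have h3 := h2.comp_hasDerivAt (0 : ℝ) (h1.differentiable (by simp) 0).hasDerivAt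
  rwa [h _ ⟨_, h1, hB, h0, rfl⟩] at h3

theorem labB (ha : 1 ≤ a) (hb : 1 ≤ b) : ∃ s τ, IsLab (βB a b) (BB a b) s τ := by
  have hs : ContDiff ℝ ∞ fun x : EB a b => f x.fst + f x.snd :=
    (smooth_f.comp smB_fst).add (smooth_f.comp smB_snd)
  have hz : ∀ x : EB a b, q x.fst + q x.snd = 0 ↔ q x.fst = 0 ∧ q x.snd = 0 := fun x =>
    add_eq_zero_iff_of_nonneg (q_nonneg _) (q_nonneg _)
  obtain ⟨τ, t1, t2, t3, t4⟩ := exists_tau (βB a b) (closedB ha hb).compact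
    ((smooth_q.comp smB_fst).add (smooth_q.comp smB_snd))
    (fun x => add_nonneg (q_nonneg _) (q_nonneg _)) fun g x hx k1 k2 =>
      eq_one (zero_of_q hx.1 ((hz _).1 k1).1 ((hz _).1 k2).1)
        (zero_of_q hx.2 ((hz _).1 k1).2 ((hz _).1 k2).2)
  refine ⟨fun x => f x.fst + f x.snd, τ, fun g x hx => ⟨?_, ?_⟩, fun g x hx h => ?_, hs, t1,
    fun g x _ => ?_, t2, t3, fun x hx h => ?_, ?_⟩
  · rw [βB_fst, norm_smul, Circle.norm_coe, one_mul, hx.1]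
  · rw [βB_snd, norm_smul, Circle.norm_coe, one_mul, hx.2]
  · exact eq_one (zero_of_fix hx.1 (congrArg (fun y : EB a b => y.fst) h))
      (zero_of_fix hx.2 (congrArg (fun y : EB a b => y.snd) h))
  · rw [βB_fst, βB_snd, f_smul, f_smul]
  · obtain ⟨a₁, h1⟩ := crit hx.1 fun u hu => by
      obtain ⟨c, c1, c2, -, c3, c4⟩ := H180.curve_sph hx.1 hu
      have h2 := curveB hs h (c := fun t => (c t, x.snd)) (c1.prodMk contDiff_const)
        (fun t => ⟨H180.mem_Sph.1 (c2 t), hx.2⟩) (by rw [c3]; rfl)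
      exact ((line c3 c4).add_const (f x.snd)).unique h2
    obtain ⟨a₂, h2⟩ := crit hx.2 fun u hu => by
      obtain ⟨c, c1, c2, -, c3, c4⟩ := H180.curve_sph hx.2 hu
      have h2 := curveB hs h (c := fun t => (x.fst, c t)) (contDiff_const.prodMk c1)
        (fun t => ⟨hx.1, H180.mem_Sph.1 (c2 t)⟩) (by rw [c3]; rfl)
      exact ((line c3 c4).const_add (f x.fst)).unique h2
    exact ⟨Multiplicative.ofAdd (a₁, a₂), t4 _ ((hz _).2 ⟨h1, h2⟩)⟩
  · refine ⟨WithLp.toLp 2 (PiLp.single 2 ⟨0, ha⟩ 1, PiLp.single 2 ⟨0, hb⟩ 1), ⟨by simp, by simp⟩,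
      t4 _ ((hz _).2 ⟨q_eq_zero.2 fun j => ?_, q_eq_zero.2 fun j => ?_⟩)⟩
    · by_cases hj : j = ⟨0, ha⟩ <;> simp [hj]
    · by_cases hj : j = ⟨0, hb⟩ <;> simp [hj]

theorem exists_inc {m n : ℕ} (h : m ≤ n) :
    Nonempty (EuclideanSpace ℂ (Fin m) →ₗᵢ[ℂ] EuclideanSpace ℂ (Fin n)) := by
  let v := (EuclideanSpace.basisFun (Fin m) ℂ).toBasis
  let w : Fin m → EuclideanSpace ℂ (Fin n) := EuclideanSpace.basisFun (Fin n) ℂ ∘ Fin.castLE h
  have hw : Orthonormal ℂ w :=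
    (EuclideanSpace.basisFun (Fin n) ℂ).orthonormal.comp _ (Fin.castLE_injective h)
  refine ⟨(v.constr ℂ w).isometryOfOrthonormal (v := v)
    (EuclideanSpace.basisFun (Fin m) ℂ).orthonormal ?_⟩
  rwa [show v.constr ℂ w ∘ v = w from funext fun i => v.constr_basis ℂ w i]

/-- an equivariant map from `S³ × S¹⁷` -/
theorem exists_map (ha : 2 ≤ a) (hb : 9 ≤ b) : ∃ c : EB5 → EB a b, ContDiff ℝ ∞ c ∧
    (∀ x ∈ B5, c x ∈ BB a b) ∧ ∀ g x, c (β5 g x) = βB a b g (c x) := by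
  obtain ⟨i⟩ := exists_inc ha
  obtain ⟨j⟩ := exists_inc hb
  refine ⟨fun x => WithLp.toLp 2 (i x.fst, j x.snd),
    (WithLp.prodContinuousLinearEquiv 2 ℝ _ _).symm.contDiff.comp
      ((((i.toContinuousLinearMap.restrictScalars ℝ).contDiff).comp smooth_fst).prodMk
        (((j.toContinuousLinearMap.restrictScalars ℝ).contDiff).comp smooth_snd)),
    fun x hx => ⟨(i.norm_map _).trans hx.1, (j.norm_map _).trans hx.2⟩, fun g x => ?_⟩
  exact WithLp.ofLp_injective 2 (Prod.ext (i.map_smul _ _) (j.map_smul _ _))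

end Vale.Agent.N220
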