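import Mathlib

/-!
# P220: a submersion of closed connected manifolds with a section has connected fibres
-/

open Set Filter Topology
open scoped ContDiff Manifold

namespace Vale.Agent.N220

theorem fibre_conn {X Y : Type} [TopologicalSpace X] [T2Space X] [CompactSpace X]
    [ConnectedSpace X] [TopologicalSpace Y] [T2Space Y] {p : X → Y} (hp : Continuous p)
    (ho : IsOpenMap p) {s : Y → X} (hs : Continuous s) (hps : ∀ q, p (s q) = q)
    (hloc : ∀ x, ∃ O ∈ 𝓝 x, ∀ q, IsPreconnected (O ∩ p ⁻¹' {q})) (q : Y) :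
    IsPreconnected (p ⁻¹' {q}) := by
  set A : Set X := {x | x ∈ connectedComponentIn (p ⁻¹' {p x}) (s (p x))} with hA
  have join : ∀ (T : Set X) (x y : X), IsPreconnected (T ∩ p ⁻¹' {p x}) → x ∈ T → y ∈ T →
      p y = p x → y ∈ A → x ∈ A := by
    intro T x y hT hx hy e hyA
    have h1 : y ∈ connectedComponentIn (p ⁻¹' {p x}) (s (p x)) := e ▸ hyA
    change x ∈ connectedComponentIn (p ⁻¹' {p x}) (s (p x))
    rw [connectedComponentIn_eq h1]
    exact hT.subset_connectedComponentIn ⟨hy, e⟩ inter_subset_right ⟨hx, rfl⟩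
  have hsA : ∀ q, s q ∈ A := fun q => by
    change s q ∈ connectedComponentIn (p ⁻¹' {p (s q)}) (s (p (s q)))
    rw [hps]
    exact mem_connectedComponentIn (hps q)
  have hopen : IsOpen A := by
    refine isOpen_iff_mem_nhds.2 fun x hx => mem_interior_iff_mem_nhds.1 ?_
    set K := connectedComponentIn (p ⁻¹' {p x}) (s (p x)) with hK
    have hKp : ∀ y ∈ K, p y = p x := fun y hy =>
      connectedComponentIn_subset (p ⁻¹' {p x}) _ hy
    have h1 : s (p x) ∈ interior A := by
      obtain ⟨O, hO, hc⟩ := hloc (s (p x))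
      have h2 : Tendsto (fun w => s (p w)) (𝓝 (s (p x))) (𝓝 (s (p x))) := by
        have := (hs.comp hp).tendsto (s (p x))
        rwa [Function.comp_apply, hps] at this
      refine mem_interior_iff_mem_nhds.2 ?_
      filter_upwards [hO, h2.eventually hO] with w a1 a2
      exact join O w (s (p w)) (hc _) a1 a2 (hps _) (hsA _)
    have h2 : ∀ y ∈ K, y ∈ closure (K ∩ interior A) → y ∈ interior A := by
      intro y hy hc
      obtain ⟨O, hO, hO'⟩ := hloc y
      obtain ⟨y', a1, a2, a3⟩ := mem_closure_iff_nhds.1 hc _ (interior_mem_nhds.2 hO)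
      have h3 : p '' (interior O ∩ interior A) ∈ 𝓝 (p y) :=
        (ho _ (isOpen_interior.inter isOpen_interior)).mem_nhds
          ⟨y', ⟨a1, a3⟩, (hKp _ a2).trans (hKp _ hy).symm⟩
      refine mem_interior_iff_mem_nhds.2 ?_
      filter_upwards [hO, hp.continuousAt.preimage_mem_nhds h3] with w b1 b2
      obtain ⟨w', b3, b4⟩ := b2
      exact join O w w' (hO' _) b1 (interior_subset b3.1) b4 (interior_subset b3.2)
    by_contra hn
    obtain ⟨y, a1, a2, a3⟩ := isPreconnected_connectedComponentIn (x := s (p x))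
      (F := p ⁻¹' {p x}) (interior A) (closure (K ∩ interior A))ᶜ isOpen_interior
      isClosed_closure.isOpen_compl (fun y hy => (em _).imp_left (h2 y hy))
      ⟨_, mem_connectedComponentIn (hps _), h1⟩ ⟨x, hx, fun h => hn (h2 x hx h)⟩
    exact a3 (subset_closure ⟨a1, a2⟩)
  have hclosed : IsClosed A := by
    refine isOpen_compl_iff.1 (isOpen_iff_mem_nhds.2 fun x hx => ?_)
    have hF : IsCompact (p ⁻¹' {p x}) := (isClosed_singleton.preimage hp).isCompact
    have := isCompact_iff_compactSpace.1 hF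
    have h1 : (⟨x, rfl⟩ : p ⁻¹' {p x}) ∉ connectedComponent (⟨s (p x), hps _⟩ : p ⁻¹' {p x}) :=
      fun h => hx (by
        change x ∈ connectedComponentIn (p ⁻¹' {p x}) (s (p x))
        rw [connectedComponentIn_eq_image (F := p ⁻¹' {p x}) (hps _)]
        exact ⟨_, h, rfl⟩)
    rw [connectedComponent_eq_iInter_isClopen, mem_iInter, not_forall] at h1
    obtain ⟨⟨Z, hZ, h2⟩, h3⟩ := h1
    obtain ⟨U₁, U₂, o1, o2, s1, s2, hd⟩ := SeparatedNhds.of_isCompact_isCompact
      (hZ.isClosed.isCompact.image continuous_subtype_val)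
      (hZ.compl.isClosed.isCompact.image continuous_subtype_val)
      (disjoint_image_of_injective Subtype.val_injective disjoint_compl_right)
    have h4 : (p '' (U₁ ∪ U₂)ᶜ)ᶜ ∈ 𝓝 (p x) := by
      refine (((o1.union o2).isClosed_compl.isCompact.image hp).isClosed.isOpen_compl).mem_nhds ?_
      rintro ⟨y, a1, a2⟩
      by_cases c : (⟨y, a2⟩ : p ⁻¹' {p x}) ∈ Z
      · exact a1 (Or.inl (s1 ⟨_, c, rfl⟩))
      · exact a1 (Or.inr (s2 ⟨_, c, rfl⟩))
    filter_upwards [hp.continuousAt.preimage_mem_nhds h4, o2.mem_nhds (s2 ⟨_, h3, rfl⟩),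
      (hs.comp hp).continuousAt.preimage_mem_nhds (o1.mem_nhds (s1 ⟨_, h2, rfl⟩))] with w a1 a2 a3
    intro a4
    obtain ⟨y, -, b⟩ := isPreconnected_connectedComponentIn (x := s (p w)) (F := p ⁻¹' {p w})
      U₁ U₂ o1 o2 (fun y hy => by_contra fun h =>
        a1 ⟨y, h, connectedComponentIn_subset (p ⁻¹' {p w}) _ hy⟩)
      ⟨_, mem_connectedComponentIn (hps _), a3⟩ ⟨w, a4, a2⟩
    exact hd.ne_of_mem b.1 b.2 rfl
  have h1 : A = univ := IsClopen.eq_univ ⟨hclosed, hopen⟩ ⟨_, hsA q⟩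
  have h2 : p ⁻¹' {q} = connectedComponentIn (p ⁻¹' {q}) (s q) := by
    refine subset_antisymm (fun x hx => ?_) (connectedComponentIn_subset _ _)
    obtain rfl : p x = q := hx
    exact (h1 ▸ mem_univ x : x ∈ A)
  rw [h2]
  exact isPreconnected_connectedComponentIn

variable {F : Type} [NormedAddCommGroup F] [NormedSpace ℝ F] [FiniteDimensional ℝ F]
  {E : Type} [NormedAddCommGroup E] [NormedSpace ℝ E] [FiniteDimensional ℝ E]
  {N : Type} [TopologicalSpace N] [ChartedSpace F N]
  {Q : Type} [TopologicalSpace Q] [ChartedSpace E Q] {p : N → Q}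

/-- a submersion is a projection in suitable topological charts -/
theorem exists_box (hp : ContMDiff 𝓘(ℝ, F) 𝓘(ℝ, E) ∞ p) (x : N)
    (hx : Function.Surjective (mfderiv 𝓘(ℝ, F) 𝓘(ℝ, E) p x)) :
    ∃ (K : Submodule ℝ F) (χ : OpenPartialHomeomorph N (E × K)), x ∈ χ.source ∧
      ∀ y ∈ χ.source, (χ y).1 = chartAt E (p x) (p y) := by
  have : CompleteSpace F := FiniteDimensional.complete ℝ F
  have h1 := (contMDiffAt_iff.1 (hp x)).2
  rw [modelWithCornersSelf_coe, range_id, contDiffWithinAt_univ] at h1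
  have h2 := ((hp x).mdifferentiableAt (by simp)).mfderiv
  rw [modelWithCornersSelf_coe, range_id, fderivWithin_univ] at h2
  have h3 := h1.hasStrictFDerivAt (by simp)
  have h4 : (fderiv ℝ (extChartAt 𝓘(ℝ, E) (p x) ∘ p ∘ (extChartAt 𝓘(ℝ, F) x).symm)
      (extChartAt 𝓘(ℝ, F) x x)).range = ⊤ := LinearMap.range_eq_top.2 (h2 ▸ hx :)
  refine ⟨_, (chartAt F x).trans (h3.implicitToOpenPartialHomeomorph _ _ h4),
    ⟨mem_chart_source F x, h3.mem_implicitToOpenPartialHomeomorph_source h4⟩, fun y hy => ?_⟩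
  refine (h3.implicitToOpenPartialHomeomorph_fst h4 _).trans ?_
  change chartAt E (p x) (p ((chartAt F x).symm (chartAt F x y))) = _
  rw [(chartAt F x).left_inv hy.1]

theorem sub_conn [T2Space N] [CompactSpace N] [ConnectedSpace N] [T2Space Q]
    (hp : ContMDiff 𝓘(ℝ, F) 𝓘(ℝ, E) ∞ p)
    (hd : ∀ x, Function.Surjective (mfderiv 𝓘(ℝ, F) 𝓘(ℝ, E) p x)) {s : Q → N} (hs : Continuous s)
    (hps : ∀ q, p (s q) = q) (q : Q) : IsPreconnected (p ⁻¹' {q}) := by
  refine fibre_conn hp.continuous (isOpenMap_iff_nhds_le.2 fun x => ?_) hs hps (fun x => ?_) q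
  · obtain ⟨K, χ, h1, h2⟩ := exists_box hp x (hd x)
    have h3 : p =ᶠ[𝓝 x] (chartAt E (p x)).symm ∘ Prod.fst ∘ χ := by
      filter_upwards [χ.open_source.mem_nhds h1, hp.continuous.continuousAt.preimage_mem_nhds
        (chart_source_mem_nhds E (p x))] with y a1 a2
      rw [Function.comp_apply, Function.comp_apply, h2 y a1, (chartAt E (p x)).left_inv a2]
    rw [map_congr h3, ← map_map, ← map_map, χ.map_nhds_eq h1, map_fst_nhds, h2 x h1,
      (chartAt E (p x)).symm_map_nhds_eq (mem_chart_source E (p x))]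
  · obtain ⟨K, χ, h1, h2⟩ := exists_box hp x (hd x)
    have h3 : χ.target ∩ χ.symm ⁻¹' (p ⁻¹' (chartAt E (p x)).source) ∈ 𝓝 (χ x) :=
      (χ.isOpen_inter_preimage_symm ((chartAt E (p x)).open_source.preimage
        hp.continuous)).mem_nhds ⟨χ.map_source h1, by
          rw [mem_preimage, χ.left_inv h1]
          exact mem_chart_source E (p x)⟩
    obtain ⟨ε, hε, hb⟩ := Metric.mem_nhds_iff.1 h3
    refine ⟨χ.symm '' Metric.ball (χ x) ε, ?_, fun q => ?_⟩
    · have h4 := χ.symm.image_mem_nhds (χ.map_source h1) (Metric.ball_mem_nhds (χ x) hε)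
      rwa [χ.left_inv h1] at h4
    have key : ∀ z ∈ Metric.ball (χ x) ε, z.1 = chartAt E (p x) (p (χ.symm z)) := fun z hz => by
      rw [← h2 _ (χ.map_target (hb hz).1), χ.right_inv (hb hz).1]
    by_cases hq : q ∈ (chartAt E (p x)).source
    · have h5 : χ.symm '' Metric.ball (χ x) ε ∩ p ⁻¹' {q} =
          χ.symm '' (Metric.ball (χ x) ε ∩ {chartAt E (p x) q} ×ˢ univ) := by
        ext y
        constructor
        · rintro ⟨⟨z, hz, rfl⟩, h⟩
          exact ⟨z, ⟨hz, (key z hz).trans (congrArg _ h), mem_univ _⟩, rfl⟩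
        · rintro ⟨z, ⟨hz, h, -⟩, rfl⟩
          exact ⟨⟨z, hz, rfl⟩, (chartAt E (p x)).injOn (hb hz).2 hq ((key z hz).symm.trans h)⟩
      rw [h5]
      exact ((convex_ball _ _).inter ((convex_singleton _).prod convex_univ)).isPreconnected.image
        _ (χ.continuousOn_symm.mono fun z hz => (hb hz.1).1)
    · refine Subsingleton.isPreconnected ?_
      rintro _ ⟨⟨z, hz, rfl⟩, h⟩
      exact (hq (mem_singleton_iff.1 h ▸ (hb hz).2)).elim

end Vale.Agent.N220
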