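import Vale.Agent.N220.Fibre
import Vale.Agent.N220.Base
import Vale.Agent.P220Z.Top.Pre
import Vale.Agent.P220Z.Rig.Main

/-!
# P220: the data that make a Lagrangian exotic

The obstruction only sees a generating family along an equivariant map of `S³ × S¹⁷` to the base.
-/

open Set Filter Topology
open scoped ContDiff RealInnerProductSpace

set_option linter.unusedSectionVars false

namespace Vale.Agent.N220

open Vale.Agent.P220.R2 Vale.Agent.P220.R2.H57 Vale.Agent.P220Z Vale.Agent.P220Z.Per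
  Vale.Agent.P220Z.Cn Vale.Agent.P220Z.Top Vale.Agent.P220Z.Def

variable {E : Type} [NormedAddCommGroup E] [InnerProductSpace ℝ E] [FiniteDimensional ℝ E]
  {E' : Type} [NormedAddCommGroup E'] [InnerProductSpace ℝ E'] [FiniteDimensional ℝ E']
  {U : Type} [NormedAddCommGroup U] [InnerProductSpace ℝ U] [FiniteDimensional ℝ U]

/-- the sublevel sets of the family are the domain of `φ` -/
structure Bar (Qt : Set E) (φ : U → ℝ) (a : ℝ) (F : E × U → ℝ) : Prop where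
  low : ∀ z ∈ Qt, ∀ x, -a < F (z, x)
  lt : ∀ z ∈ Qt, ∀ x, φ x < 0 → F (z, x) < a
  gt : ∀ z ∈ Qt, ∀ x, 0 < φ x → a < F (z, x)
  col : ∃ δ > 0, ∃ κ > 0, ∃ R : ℝ, (∀ x, R ≤ ‖x‖ → 0 < φ x) ∧
    ∀ z ∈ Qt, ∀ x, ‖x‖ ≤ R + 1 → |φ x| ≤ δ → F (z, x) = a + κ * φ x

open Vale.Agent.P220Z.Dyn Br in
/-- a rigid structured stabilisation gives rigid data, over any base with an equivariant map from
`S³ × S¹⁷` -/
theorem bridge {α : G5 →* (E ≃ₗᵢ[ℝ] E)} {ρ : G5 →* (U ≃ₗᵢ[ℝ] U)} {Qt : Set E} (hQ : IsCompact Qt)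
    {ι : EB5 → E} (sι : ContDiff ℝ ∞ ι) (hι : ∀ b ∈ B5, ι b ∈ Qt)
    (hα : ∀ g, ∀ b ∈ B5, ι (β5 g b) = α g (ι b)) {φ : U → ℝ} (hφ : IsReg φ)
    (invφ : ∀ g x, φ (ρ g x) = φ x) {a : ℝ} {F : E × U → ℝ} {Z : Type} [NormedAddCommGroup Z]
    [InnerProductSpace ℝ Z] [FiniteDimensional ℝ Z] {sg : E × Z → E} {w : E × (Z × Z) → ℝ}
    (hF : IsAdm α Qt a ρ F) (hbar : Bar Qt φ a F) (hstr : IsStr α Qt sg w)
    (hrig : IsRigid Qt a (strF sg w F))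
    (hwin : ∀ z ∈ Qt, ∀ X : St U Z, dV (strF sg w F) z X = 0 →
      (|strF sg w F (z, X)| < a ↔ |F (sg (z, X.snd.fst), X.fst)| < a)) : HasRD ρ φ := by
  obtain ⟨δ, hδ, κ, hκ, R, hR, hcol⟩ := hbar.col
  obtain ⟨C, hC⟩ := hstr.bdd
  obtain ⟨C', hC'⟩ := (hQ.prod (isCompact_closedBall (0 : U) (R + 1))).exists_bound_of_continuousOn
      (hF.smooth.continuous_fderiv (by simp)).continuousOn
  have hs := hf_smooth hstr.ssg hstr.sw hF.smooth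
  have hD : ∀ (b : EB5) (y : St U Z), D (fun z : EB5 × St U Z =>
      hf sg w F (ι z.1, z.2) + Qd (Js Z) z.2) (b, y) = dV (strF sg w F) (ι b) y := fun b y =>
    congrArg (fun f => fderiv ℝ f y) (funext fun y' => hf_add sg w F (ι b, y'))
  obtain ⟨R', L, C₀, e₀, c₀, F', X, h⟩ := core (β := β5) (ρ := ρ) (J := Js Z)
    (H := fun z => hf sg w F (ι z.1, z.2)) (C := C' * (C + 1) + C) isCompact_B
    act_B hφ invφ Js_inv (hs.comp ((sι.comp contDiff_fst).prodMk contDiff_snd))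
    (fun g b hb y => by
      have h1 := hstr.equi g _ (hι b hb) y.snd.fst
      have h2 := hstr.inv g _ (hι b hb) (y.snd.fst, y.snd.snd)
      have h3 := hF.inv g _ (hstr.mem _ (hι b hb) y.snd.fst) y.fst
      rw [← h1, ← hα g b hb] at h3
      rw [← hα g b hb] at h2
      exact congrArg₂ (· + ·) h3 h2)
    hR hδ hκ
    (fun b hb y hy => hf_bd (b := ι b) hstr.ssg hstr.sw hF.smooth
      (hC _ (hι b hb) y.snd.fst y.snd.snd).1 (hC _ (hι b hb) y.snd.fst y.snd.snd).2.2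
      (hC' (_, _) ⟨hstr.mem _ (hι b hb) _, mem_closedBall_zero_iff.2 hy⟩))
    (fun b hb => ⟨fun η => a + w (ι b, (η.fst, η.snd)), fun y h1 h2 => by
      have h3 := hcol _ (hstr.mem _ (hι b hb) y.snd.fst) y.fst h1 h2
      rw [hf, h3]
      ring⟩)
    (fun b hb => by
      obtain ⟨c, c1, c2, c3, c4⟩ := hrig _ (hι b hb)
      refine ⟨c, ?_, (hD b c).trans c1, ?_, fun y y1 y2 => ?_⟩
      · have h1 := (abs_lt.1 ((hwin _ (hι b hb) c c1).1 c2)).2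
        exact le_of_not_gt fun h2 => h1.not_gt (hbar.gt _ (hstr.mem _ (hι b hb) _) _ h2)
      · rw [funext (hD b)]
        exact c3
      · rw [hD] at y2
        exact c4 y y2 ((hwin _ (hι b hb) y y2).2 (abs_lt.2
          ⟨hbar.low _ (hstr.mem _ (hι b hb) _) _, hbar.lt _ (hstr.mem _ (hι b hb) _) _ y1⟩)))
  exact ⟨_, inferInstance, inferInstance, inferInstance, _, _, _, _, _, _, _, _, h⟩

/-- `L ⊂ T*Q` has generating families over the covering `Qt` whose sublevel sets are a domain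
without rigid data. -/
structure Data (α : G5 →* (E ≃ₗᵢ[ℝ] E)) (ρ : G5 →* (U ≃ₗᵢ[ℝ] U)) (Qt : Set E) (Q : Set E')
    (P : E → E') (L : Set (E' × E')) (ι : EB5 → E) (φ : U → ℝ) : Prop where
  reg : IsReg φ
  inv : ∀ g x, φ (ρ g x) = φ x
  no : ¬ HasRD ρ φ
  quot : IsQuot α Qt Q P
  sι : ContDiff ℝ ∞ ι
  mι : ∀ b ∈ B5, ι b ∈ Qt
  eι : ∀ g, ∀ b ∈ B5, ι (β5 g b) = α g (ι b)
  sub : L ⊆ Cot Q
  conn : ∃ a F, IsAdm α Qt a ρ F ∧ IsGen Qt P L a 0 F ∧ IsConnected (Sig Qt a F)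
  fam : ∀ C, ∃ a F, IsAdm α Qt a ρ F ∧ IsGen Qt P L a C F ∧ Bar Qt φ a F

variable {α : G5 →* (E ≃ₗᵢ[ℝ] E)} {ρ : G5 →* (U ≃ₗᵢ[ℝ] U)} {Qt : Set E} {Q : Set E'}
  {P : E → E'} {L : Set (E' × E')} {ι : EB5 → E} {φ : U → ℝ}

theorem eq_lag (h : IsQuot α Qt Q P) (hL : L ⊆ Cot Q) {a m : ℝ} {F : E × U → ℝ}
    (hG : IsGen Qt P L a m F) : Lag Qt Q P (Sig Qt a F) F = L := by
  ext z
  constructor
  · rintro ⟨y, hy, h1, h2, h3⟩
    obtain ⟨q, h4, h5⟩ := hG.mem _ hy.1 _ hy.2.1 hy.2.2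
    have h6 : z.2 = q := Lg.uniq h.cov hy.1 (h1 ▸ h2) (hL h4).2 fun u hu =>
      (h3 u hu).trans (h5 u hu).symm
    rwa [← h6, ← h1] at h4
  · intro hz
    obtain ⟨b, hb, e⟩ := h.onto _ (hL hz).1
    obtain ⟨x, h1, h2, h3⟩ := hG.onto b hb z.2 (by rw [e]; exact hz)
    exact ⟨(b, x), ⟨hb, h1, h2⟩, e.symm, (hL hz).2, h3⟩

theorem Data.lag (h : Data α ρ Qt Q P L ι φ) {n : ℕ} (hQt : IsSubmanifold n Qt) :
    IsExactLagrangian n Q L := by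
  obtain ⟨a, F, hA, hG, hS⟩ := h.conn
  have hp : IsPre Qt a 0 F := ⟨hG.gap, hG.inj, hG.reg⟩
  obtain ⟨h1, h2⟩ := Cn.sig G5 E U α ρ n Qt a 0 F hQt h.quot.cov.cptT hA hp
  obtain ⟨h3, -, h5⟩ := Cn.lag G5 E E' U α ρ n Qt Q P a 0 F h.quot.cov h.quot.sep hA hp h1 h2
    hS.nonempty
  rw [eq_lag h.quot h.sub hG] at h3 h5
  exact ⟨⟨h3.mfd, h3.compact, h5 hS⟩, h3.sub, h3.exact⟩

theorem Data.not_ham (h : Data α ρ Qt Q P L ι φ) : ¬ HamIsotopicToZero Q L := fun hH => by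
  obtain ⟨C, hC⟩ := Per.stStruct G5 E E' α Qt Q P L h.quot.cov hH
  obtain ⟨a, F, hA, hG, hb⟩ := h.fam C
  obtain ⟨Z, _, _, _, sg, w, h1, -, h3, h4⟩ := hC a U ρ F hA hG
  exact h.no (bridge h.quot.cov.cptT h.sι h.mι h.eι h.reg h.inv hA hb h1 h3 h4)

/-- the quotient of a closed manifold by a free action -/
theorem exists_quot {G : Type} [Group G] [Fintype G] (α : G →* (E ≃ₗᵢ[ℝ] E)) {n : ℕ} {Qt : Set E}
    (hQt : IsClosedManifold n Qt) (hact : ∀ g, ∀ x ∈ Qt, α g x ∈ Qt)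
    (hfree : ∀ g, ∀ x ∈ Qt, α g x = x → g = 1) :
    ∃ (E' : Type) (_ : NormedAddCommGroup E') (_ : InnerProductSpace ℝ E')
      (_ : FiniteDimensional ℝ E') (Q : Set E') (P : E → E'), IsQuot α Qt Q P ∧
      IsClosedManifold n Q := by
  obtain ⟨E', _, _, _, P, hP, hinv, hsep, himm⟩ := stQuot G E α Qt hQt.compact hact hfree
  obtain ⟨h1, h2, -⟩ := stImg G E _ (fun g => α g) n Qt P hQt.sub hQt.compact hP
    (fun g => (α g).continuous) hact (fun g x _ => hinv g x) hsep fun x hx u _ => himm x hx u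
  have hc : IsCompact (P '' Qt) := hQt.compact.image hP.continuous
  exact ⟨E', inferInstance, inferInstance, inferInstance, P '' Qt, P,
    ⟨⟨(exists_ret hQt.sub hQt.compact).imp fun _ h => h.imp fun _ h => h.1, hQt.compact,
      (exists_ret h1 hc).imp fun _ h => h.imp fun _ h => h.1, hc, hP,
      fun b hb => mem_image_of_mem _ hb, fun b hb u _ => himm b hb u, h2, hact,
      fun g b _ => hinv g b⟩, hsep, fun _ h => h⟩,
    ⟨h1, hc, hQt.conn.image _ hP.continuous.continuousOn⟩⟩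

open Vale.Agent.P220Z.Hs in
/-- the domain in `ℝ¹⁴` -/
theorem domain : (∀ g x, phi0 (rhoU g x) = phi0 x) ∧ Top.Joined phi0 (fun x => ‖x‖ ^ 2 - 1) ∧
    ¬ HasRD rhoU phi0 := by
  obtain ⟨n, w, c, hc0, hn, hW, hl⟩ := Def.stTool
  obtain ⟨K, L, hK, hL⟩ := stWt
  have hp := stPath Hs.stReg
  have hh := stHs stCont stMem Hs.stReg K L hL
  have hs := stSt Hs.stReg
  obtain ⟨D, hD, hWn⟩ := isWn_of hs (stWa stPer stM1') (stWb stM1') stWc hW hK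
  obtain ⟨r, hr, -⟩ := Top.exists_retr rhoU hh.inv hp
  exact ⟨hh.inv, hp, fun h => Tb.b0 n w c hc0 hn hW hl UU rhoU phi0 _ _ _ _ _ _ r hh hs.1 hWn hr
    (sum_ne D hD) (Rig.stThA n hn UU rhoU phi0 hp.left hh.inv h)⟩

open Vale.Agent.P220Z.Hs in
theorem finrank_UU : Module.finrank ℝ UU = 12 + 2 := by
  rw [co.toLinearEquiv.finrank_eq]
  simp [Module.finrank_pi_fintype]

open Vale.Agent.P220Z.Hs in
/-- the data over the quotient of `B × S¹³` -/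
theorem data_of {β : G5 →* (E ≃ₗᵢ[ℝ] E)} {B : Set E} {m : ℕ} (hB : IsClosedManifold m B)
    {s τ : E → ℝ} (hlab : IsLab β B s τ) {c : EB5 → E} (sc : ContDiff ℝ ∞ c)
    (mc : ∀ x ∈ B5, c x ∈ B) (ec : ∀ g x, c (β5 g x) = β g (c x)) :
    ∃ (E' : Type) (_ : NormedAddCommGroup E') (_ : InnerProductSpace ℝ E')
      (_ : FiniteDimensional ℝ E') (Q : Set E') (P : Bs E UU → E') (L : Set (E' × E'))
      (ι : EB5 → Bs E UU), IsClosedManifold (m + (12 + 1)) Q ∧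
      Data (prodRep β rhoU) rhoU (QtOf UU B) Q P L ι phi0 := by
  obtain ⟨hinv, hJ, hN⟩ := domain
  obtain ⟨ψ, Θ, Θ', hψ, hΘ⟩ := stIso UU _ _ hJ
  obtain ⟨φ, Ψ, Ψ', hD, hT⟩ := stSpread G5 E UU β rhoU B s τ phi0 ψ Θ Θ' hlab hinv hψ hΘ
  have hQt := stBase E UU m 12 B hB finrank_UU
  have hact : ∀ g, ∀ z ∈ QtOf UU B, prodRep β rhoU g z ∈ QtOf UU B := fun g z hz =>
    ⟨hD.act g _ hz.1, ((rhoU g).norm_map z.snd).trans hz.2⟩
  have hfree : ∀ g, ∀ z ∈ QtOf UU B, prodRep β rhoU g z = z → g = 1 := fun g z hz h =>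
    hD.free g _ hz.1 (congrArg WithLp.fst h)
  obtain ⟨E', _, _, _, Q, P, hc, hQ⟩ := exists_quot (prodRep β rhoU) hQt hact hfree
  obtain ⟨S, F₀, hS, hF⟩ := Cn.stFam G5 E UU β rhoU m 12 B φ s hB finrank_UU hD
  have key : ∀ (a C : ℝ) (F : Bs E UU × UU → ℝ),
      IsAdm (prodRep β rhoU) (QtOf UU B) a rhoU F → IsPre (QtOf UU B) a C F →
      Sig (QtOf UU B) a F = S → (∀ y ∈ S, fderiv ℝ F y = fderiv ℝ F₀ y) →
      IsGen (QtOf UU B) P (Lag (QtOf UU B) Q P S F₀) a C F := by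
    intro a C F hA hpre hsig hd
    obtain ⟨h1, h2⟩ := Cn.sig G5 _ UU (prodRep β rhoU) rhoU _ _ a C F hQt.sub hQt.compact hA hpre
    obtain ⟨-, h4, -⟩ := Cn.lag G5 _ _ UU (prodRep β rhoU) rhoU _ _ Q P a C F hc.cov hc.sep hA
      hpre h1 h2 (hsig ▸ hS.nonempty)
    rwa [hsig, lag_congr hd] at h4
  let θ : UU := WithLp.toLp 2 (EuclideanSpace.single 0 1, 0)
  have hθ : ‖θ‖ = 1 := by simp [θ]
  have hfix : ∀ g, rhoU g θ = θ := fun g => by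
    refine WithLp.ofLp_injective 2 (Prod.ext rfl ?_)
    exact map_zero (aE g)
  refine ⟨E', inferInstance, inferInstance, inferInstance, Q, P, Lag (QtOf UU B) Q P S F₀,
    fun b => WithLp.toLp 2 (c b, θ), hQ, hJ.left, hinv, hN, hc,
    (WithLp.prodContinuousLinearEquiv 2 ℝ E UU).symm.contDiff.comp
      (sc.prodMk contDiff_const), fun b hb => ⟨mc b hb, hθ⟩, fun g b _ => ?_, ?_, ?_,
    fun C => ?_⟩
  · conv_lhs => rw [← hfix g, ec]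
    rfl
  · rintro z ⟨y, hy, h1, h2, -⟩
    obtain ⟨a₀, F₁, -, -, hs₁, -, -⟩ := hF 0
    exact ⟨h1 ▸ hc.cov.maps _ (hs₁ ▸ hy : y ∈ Sig (QtOf UU B) a₀ F₁).1, h2⟩
  · obtain ⟨a₀, F₁, hA₁, hp₁, hs₁, hd₁, -⟩ := hF 0
    exact ⟨a₀, F₁, hA₁, key a₀ 0 F₁ hA₁ hp₁ hs₁ hd₁, hs₁ ▸ hS⟩
  obtain ⟨a, F, hA, hpre, hsig, hd, hbar⟩ := hF C
  obtain ⟨R, hR⟩ := hT.far
  have hfst : ContDiff ℝ ∞ fun y : Bs E UU × UU => (y.1.fst, y.2) :=
    ((WithLp.fstL 2 ℝ E UU).contDiff.comp contDiff_fst).prodMk contDiff_snd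
  obtain ⟨hA', hG'⟩ := stPull G5 _ _ UU (prodRep β rhoU) rhoU _ P _ a C R F
    (fun y => Ψ (y.1.fst, y.2)) (fun y => Ψ' (y.1.fst, y.2)) (hT.sm.comp hfst) (hT.sm'.comp hfst)
    (fun z hz x => hT.left _ hz.1 x) (fun z hz x => hT.right _ hz.1 x)
    (fun g z hz x => hT.equi g _ hz.1 x) (fun z hz x hx => hR _ hz.1 x hx) hA
    (key a C F hA hpre hsig hd)
  have hb := isBarC_pull hB.compact hB.conn.nonempty hD.sφ.continuous hT hbar
  exact ⟨a, _, hA', hG', hb.low, hb.lt, hb.gt, hb.col⟩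

end Vale.Agent.N220
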