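import Vale.Agent.P220I10.Defs
import Mathlib.Topology.Covering.Quotient
import Mathlib.Analysis.InnerProductSpace.PiL2
import Mathlib.Data.ZMod.Basic

/-!
# P220: submersions with a section, pull-backs of Lagrangians, exotic Lagrangians
-/

open Set
open scoped ContDiff Manifold

namespace Vale.Agent.N220

open Vale.Agent.P220I

variable (E : Type) [NormedAddCommGroup E] [NormedSpace ℝ E]
  {Q : Type} [TopologicalSpace Q] [ChartedSpace E Q] [IsManifold 𝓘(ℝ, E) ∞ Q]

/-- With `om = dλ`, the set `L ⊂ T*Q` is the image of an exact Lagrangian embedding of a closed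
connected manifold, and it is not Hamiltonian isotopic to the zero section. -/
def IsExotic (L : Set (Cot E Q)) : Prop :=
  ∃ om, IsD (lam E Q) om ∧
    (∃ (M : Type) (_ : TopologicalSpace M) (_ : T2Space M) (_ : CompactSpace M)
      (_ : ConnectedSpace M) (_ : ChartedSpace E M) (_ : IsManifold 𝓘(ℝ, E) ∞ M)
      (ι : M → Cot E Q), IsExact (lam E Q) om E ι ∧ range ι = L) ∧
    ¬ HamIso om (zero E Q) L

variable (F : Type) [NormedAddCommGroup F] [NormedSpace ℝ F]
  {N : Type} [TopologicalSpace N] [ChartedSpace F N] [IsManifold 𝓘(ℝ, F) ∞ N]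

/-- `p : N → Q` is a smooth submersion with a smooth section. -/
structure IsSplit (p : N → Q) : Prop where
  /-- smooth -/
  smooth : ContMDiff 𝓘(ℝ, F) 𝓘(ℝ, E) ∞ p
  /-- a submersion -/
  surj : ∀ x, Function.Surjective (mfderiv 𝓘(ℝ, F) 𝓘(ℝ, E) p x)
  /-- a section -/
  sec : ∃ s : Q → N, ContMDiff 𝓘(ℝ, E) 𝓘(ℝ, F) ∞ s ∧ ∀ q, p (s q) = q

/-- The pull-back of `L ⊂ T*Q` to `T*N`: the points `(x, ξ ∘ dp_x)` with `(p x, ξ) ∈ L`. -/
def pullBack (p : N → Q) (L : Set (Cot E Q)) : Set (Cot F N) :=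
  {w | ∃ ξ : TangentSpace 𝓘(ℝ, E) (p (pr F N w)) →L[ℝ] ℝ, (⟨p (pr F N w), ξ⟩ : Cot E Q) ∈ L ∧
    cov F N w = ξ.comp (mfderiv 𝓘(ℝ, F) 𝓘(ℝ, E) p (pr F N w))}

variable (Q) in
/-- `T*Q` contains an exotic Lagrangian `L` whose pull-back under every submersion with a section
from a closed connected manifold is exotic. -/
def StablyExotic : Prop :=
  ∃ L : Set (Cot E Q), IsExotic E L ∧
    ∀ (F : Type) [NormedAddCommGroup F] [NormedSpace ℝ F] [FiniteDimensional ℝ F]
      (N : Type) [TopologicalSpace N] [T2Space N] [CompactSpace N] [ConnectedSpace N]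
      [ChartedSpace F N] [IsManifold 𝓘(ℝ, F) ∞ N] (p : N → Q),
      IsSplit E F p → IsExotic F (pullBack E F p L)

/-- The space `Q` is the quotient of the product of the unit spheres of `A`, `B`, `C` by a free
action of `C₅ × C₅`. -/
def IsQuotient (A B C Q : Type) [NormedAddCommGroup A] [NormedAddCommGroup B]
    [NormedAddCommGroup C] [TopologicalSpace Q] : Prop :=
  ∃ (_ : MulAction (Multiplicative (ZMod 5 × ZMod 5))
      (Metric.sphere (0 : A) 1 × Metric.sphere (0 : B) 1 × Metric.sphere (0 : C) 1))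
    (π : Metric.sphere (0 : A) 1 × Metric.sphere (0 : B) 1 × Metric.sphere (0 : C) 1 → Q),
    IsQuotientCoveringMap π (Multiplicative (ZMod 5 × ZMod 5))

end Vale.Agent.N220
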