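import Vale.Agent.P220Z.Cn.Lag
import Vale.Agent.P220Z.Cn.Img

/-!
# P220: the pull-back of a covering under a map of embedded manifolds

`P : Qt → Q` is the quotient map of a free action and `p : S → Q` is a smooth map.  The fibre
product of `P` and `p` is a closed manifold that covers `S`.
-/

open Set Filter Topology
open scoped ContDiff RealInnerProductSpace

set_option linter.unusedSectionVars false

namespace Vale.Agent.N220

open Vale.Agent.P220.R2 Vale.Agent.P220.R2.H57 Vale.Agent.P220Z.Per Vale.Agent.P220Z.Cn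

variable {G : Type} [Group G]
  {E : Type} [NormedAddCommGroup E] [InnerProductSpace ℝ E] [FiniteDimensional ℝ E]
  {E' : Type} [NormedAddCommGroup E'] [InnerProductSpace ℝ E'] [FiniteDimensional ℝ E']
  {V : Type} [NormedAddCommGroup V] [InnerProductSpace ℝ V] [FiniteDimensional ℝ V]
  {α : G →* (E ≃ₗᵢ[ℝ] E)} {Qt : Set E} {Q : Set E'} {P : E → E'} {S : Set V} {p : V → E'}

/-- the fibre product -/
def Fp (Qt : Set E) (P : E → E') (S : Set V) (p : V → E') : Set (Bs E V) :=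
  {z | z.fst ∈ Qt ∧ z.snd ∈ S ∧ P z.fst = p z.snd}

/-- `P` is the quotient map of the action on `Qt` -/
structure IsQuot (α : G →* (E ≃ₗᵢ[ℝ] E)) (Qt : Set E) (Q : Set E') (P : E → E') : Prop where
  cov : IsCover α Qt Q P
  sep : ∀ b ∈ Qt, ∀ b' ∈ Qt, P b = P b' → ∃ g, α g b' = b
  onto : ∀ q ∈ Q, ∃ b ∈ Qt, P b = q

theorem IsQuot.exists_sec (h : IsQuot α Qt Q P) {b : E} (hb : b ∈ Qt) :
    ∃ μ : E' → E, ContDiff ℝ ∞ μ ∧ (∀ᶠ w in 𝓝 (P b), μ w ∈ Qt) ∧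
      (∀ᶠ x in 𝓝 b, x ∈ Qt → μ (P x) = x) ∧ ∀ᶠ w in 𝓝 (P b), w ∈ Q → P (μ w) = w := by
  obtain ⟨U, r, hr⟩ := h.cov.retT
  obtain ⟨μ, hμ, h1, h2⟩ := Img.exists_inv hr h.cov.smooth hb fun u hu =>
    h.cov.inj b hb u ((hr.mem_Tan hb).2 hu)
  refine ⟨μ, hμ, h1, h2, ?_⟩
  obtain ⟨N, hN, hNo, hyN⟩ := eventually_nhds_iff.1 h2
  have hK : IsCompact (Qt ∩ ⋂ g, α g ⁻¹' Nᶜ) :=
    h.cov.cptT.inter_right (isClosed_iInter fun g => hNo.isClosed_compl.preimage (α g).continuous)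
  have hy' : P b ∉ P '' (Qt ∩ ⋂ g, α g ⁻¹' Nᶜ) := by
    rintro ⟨x, ⟨hx, hx'⟩, e⟩
    obtain ⟨g, hg⟩ := h.sep b hb x hx e.symm
    exact mem_iInter.1 hx' g (by rw [hg]; exact hyN)
  filter_upwards [(hK.image h.cov.smooth.continuous).isClosed.isOpen_compl.mem_nhds hy'] with w hw
  intro hwQ
  obtain ⟨x, hx, rfl⟩ := h.onto w hwQ
  have : ∃ g, α g x ∈ N := by
    by_contra h3
    exact hw ⟨x, ⟨hx, mem_iInter.2 fun g hg => h3 ⟨g, hg⟩⟩, rfl⟩
  obtain ⟨g, hg⟩ := this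
  rw [← h.cov.inv g x hx, hN _ hg (h.cov.act g x hx)]

theorem sm_fst : ContDiff ℝ ∞ fun z : Bs E V => z.fst := (WithLp.fstL 2 ℝ E V).contDiff

theorem sm_snd : ContDiff ℝ ∞ fun z : Bs E V => z.snd := (WithLp.sndL 2 ℝ E V).contDiff

theorem d_fst (z u : Bs E V) : fderiv ℝ (fun z : Bs E V => z.fst) z u = u.fst :=
  congrArg (fun C : Bs E V →L[ℝ] E => C u) (WithLp.fstL 2 ℝ E V).fderiv

theorem d_snd (z u : Bs E V) : fderiv ℝ (fun z : Bs E V => z.snd) z u = u.snd :=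
  congrArg (fun C : Bs E V →L[ℝ] V => C u) (WithLp.sndL 2 ℝ E V).fderiv

/-- near each of its points the fibre product is a graph over `S` -/
theorem IsQuot.graph (h : IsQuot α Qt Q P) {U : Set V} {r : V → V} (hr : IsRet S U r)
    (hp : ContDiff ℝ ∞ p) (hm : ∀ y ∈ S, p y ∈ Q) {z : Bs E V} (hz : z ∈ Fp Qt P S p) :
    ∃ k : V → E, ContDiff ℝ ∞ k ∧
      (∀ᶠ y in 𝓝 z.snd, WithLp.toLp 2 (k y, r y) ∈ Fp Qt P S p) ∧
      ∀ᶠ w in 𝓝 z, w ∈ Fp Qt P S p → k w.snd = w.fst := by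
  obtain ⟨μ, hμ, h1, h2, h3⟩ := h.exists_sec hz.1
  have hc : Tendsto (fun y => p (r y)) (𝓝 z.snd) (𝓝 (P z.fst)) := by
    have := (hp.comp hr.smooth).continuous.tendsto z.snd
    rwa [Function.comp_apply, hr.fix _ hz.2.1, ← hz.2.2] at this
  refine ⟨fun y => μ (p (r y)), hμ.comp (hp.comp hr.smooth), ?_, ?_⟩
  · filter_upwards [hc.eventually h1, hc.eventually h3, hr.isOpen.mem_nhds (hr.sub hz.2.1)]
      with y a1 a2 a3
    exact ⟨a1, hr.maps y a3, a2 (hm _ (hr.maps y a3))⟩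
  · filter_upwards [(sm_fst.continuous.tendsto z).eventually h2] with w a1 a2
    rw [hr.fix _ a2.2.1, ← a2.2.2, a1 a2.1]

theorem IsQuot.fp_sub (h : IsQuot α Qt Q P) {n : ℕ} (hS : IsSubmanifold n S) (hc : IsCompact S)
    (hp : ContDiff ℝ ∞ p) (hm : ∀ y ∈ S, p y ∈ Q) : IsSubmanifold n (Fp Qt P S p) := by
  obtain ⟨U, r, hr, hn⟩ := exists_ret hS hc
  intro z hz
  obtain ⟨k, hk, h1, h2⟩ := h.graph hr hp hm hz
  let e := (WithLp.prodContinuousLinearEquiv 2 ℝ E V).symm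
  have hρ : H180.LocRet (Fp Qt P S p) z fun w => e (k w.snd, r w.snd) :=
    ⟨hz, e.contDiff.comp ((hk.comp sm_snd).prodMk (hr.smooth.comp sm_snd)),
      (sm_snd.continuous.tendsto z).eventually h1, h2.mono fun w a1 a2 => by
        rw [a1 a2, hr.fix _ a2.2.1]
        rfl⟩
  obtain ⟨T, hT, hT2⟩ := exists_projection (Tn (fun w : Bs E V => e (k w.snd, r w.snd)) z)
  obtain ⟨Θ, k1, k2, k3, k4, -, -⟩ := hρ.exists_chart hT hT2
  refine ⟨Θ, _, k1, k2, k3, ?_, k4⟩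
  have d1 : HasFDerivAt (fun w : Bs E V => e (k w.snd, r w.snd)) _ z :=
    e.hasFDerivAt.comp z (((hk.differentiable (by simp) z.snd).hasFDerivAt.comp z
      (WithLp.sndL 2 ℝ E V).hasFDerivAt).prodMk ((hr.hasFDerivAt z.snd).comp z
        (WithLp.sndL 2 ℝ E V).hasFDerivAt))
  have d2 : ∀ w, fderiv ℝ (fun w : Bs E V => e (k w.snd, r w.snd)) z w =
      e (fderiv ℝ k z.snd w.snd, fderiv ℝ r z.snd w.snd) := fun w => by
    rw [d1.fderiv]
    rfl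
  let J : Tn r z.snd →ₗ[ℝ] Bs E V := (e : E × V →ₗ[ℝ] Bs E V).comp
    ((((fderiv ℝ k z.snd : V →ₗ[ℝ] E)).prod LinearMap.id).comp (Tn r z.snd).subtype)
  have e1 : Tn (fun w : Bs E V => e (k w.snd, r w.snd)) z = LinearMap.range J := by
    ext w
    rw [mem_Tn, d2]
    constructor
    · intro a
      have a1 : fderiv ℝ r z.snd w.snd = w.snd := congrArg (fun y : Bs E V => y.snd) a
      refine ⟨⟨w.snd, a1⟩, ?_⟩
      rw [a1] at a
      exact a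
    · rintro ⟨⟨v, hv⟩, rfl⟩
      change e (fderiv ℝ k z.snd v, fderiv ℝ r z.snd v) = e (fderiv ℝ k z.snd v, v)
      rw [mem_Tn.1 hv]
  rw [e1, LinearMap.finrank_range_of_inj, hn _ hz.2.1]
  exact fun u v a => Subtype.ext (congrArg (fun y : Bs E V => y.snd) a)

theorem fp_compact (hQt : IsCompact Qt) (hc : IsCompact S) (hP : Continuous P)
    (hp : Continuous p) : IsCompact (Fp Qt P S p) := by
  have h1 : IsCompact ((WithLp.prodContinuousLinearEquiv 2 ℝ E V).symm '' (Qt ×ˢ S)) :=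
    (hQt.prod hc).image (ContinuousLinearEquiv.continuous _)
  refine (h1.inter_right (isClosed_eq (hP.comp sm_fst.continuous)
    (hp.comp sm_snd.continuous))).of_isClosed_subset ?_ fun z hz =>
      ⟨⟨(z.fst, z.snd), ⟨hz.1, hz.2.1⟩, rfl⟩, hz.2.2⟩
  exact (hQt.isClosed.preimage sm_fst.continuous).inter
    ((hc.isClosed.preimage sm_snd.continuous).inter
      (isClosed_eq (hP.comp sm_fst.continuous) (hp.comp sm_snd.continuous)))

/-- the tangent vectors of the fibre product -/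
theorem fp_tan (hP : ContDiff ℝ ∞ P) (hp : ContDiff ℝ ∞ p) {z u : Bs E V}
    (hu : u ∈ Tan (Fp Qt P S p) z) :
    u.fst ∈ Tan Qt z.fst ∧ u.snd ∈ Tan S z.snd ∧
      fderiv ℝ P z.fst u.fst = fderiv ℝ p z.snd u.snd := by
  have h1 := Lg.push (T := Qt) sm_fst (fun _ h => h.1) hu
  have h2 := Lg.push (T := S) sm_snd (fun _ h => h.2.1) hu
  rw [d_fst] at h1
  rw [d_snd] at h2
  refine ⟨h1, h2, ?_⟩
  have h3 := Lg.fderiv_congr (hP.comp sm_fst) (hp.comp sm_snd) (fun _ h => h.2.2) hu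
  rwa [fderiv_comp z (hP.differentiable (by simp) _) (sm_fst.differentiable (by simp) _),
    fderiv_comp z (hp.differentiable (by simp) _) (sm_snd.differentiable (by simp) _),
    ContinuousLinearMap.comp_apply, ContinuousLinearMap.comp_apply, d_fst, d_snd] at h3

/-- tangent vectors of `S` lift -/
theorem IsQuot.lift_snd (h : IsQuot α Qt Q P) {n : ℕ} (hS : IsSubmanifold n S) (hc : IsCompact S)
    (hp : ContDiff ℝ ∞ p) (hm : ∀ y ∈ S, p y ∈ Q) {z : Bs E V} (hz : z ∈ Fp Qt P S p) {v : V}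
    (hv : v ∈ Tan S z.snd) : ∃ u ∈ Tan (Fp Qt P S p) z, u.snd = v := by
  obtain ⟨U, r, hr, -⟩ := exists_ret hS hc
  obtain ⟨U', r', hr', -⟩ := exists_ret (h.fp_sub hS hc hp hm)
    (fp_compact h.cov.cptT hc h.cov.smooth.continuous hp.continuous)
  obtain ⟨k, hk, h1, h2⟩ := h.graph hr hp hm hz
  obtain ⟨c, c1, c2, c3, c4⟩ := Lg.tan_curve hv
  let e := (WithLp.prodContinuousLinearEquiv 2 ℝ E V).symm
  have d1 : HasDerivAt (fun t => e (k (c t), c t)) (e (fderiv ℝ k z.snd v, v)) 0 :=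
    e.hasFDerivAt.comp_hasDerivAt (0 : ℝ) ((Lg.comp_curve hk c3 c4).prodMk c4)
  have d2 : ∀ᶠ t in 𝓝 (0 : ℝ), e (k (c t), c t) ∈ Fp Qt P S p := by
    filter_upwards [(c3 ▸ c1.continuous.tendsto 0).eventually h1] with t ht
    rwa [hr.fix _ (c2 t)] at ht
  have d3 := hr'.curve_tangent d2 d1
  have d4 : e (k (c 0), c 0) = z := by
    rw [c3, h2.self_of_nhds hz]
    rfl
  rw [d4] at d3
  exact ⟨_, (hr'.mem_Tan hz).2 d3, rfl⟩

/-- the fibre product is a covering of `S` -/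
theorem IsQuot.fp (h : IsQuot α Qt Q P) {n : ℕ} (hS : IsSubmanifold n S) (hc : IsCompact S)
    (hp : ContDiff ℝ ∞ p) (hm : ∀ y ∈ S, p y ∈ Q) :
    IsQuot (prodRep α (1 : G →* (V ≃ₗᵢ[ℝ] V))) (Fp Qt P S p) S fun z => z.snd := by
  have hK := fp_compact (S := S) h.cov.cptT hc h.cov.smooth.continuous hp.continuous
  refine ⟨⟨(exists_ret (h.fp_sub hS hc hp hm) hK).imp fun _ a => a.imp fun _ a => a.1, hK,
    (exists_ret hS hc).imp fun _ a => a.imp fun _ a => a.1, hc, sm_snd, fun _ a => a.2.1,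
    fun z hz u hu h0 => ?_, fun z hz v hv => ?_,
    fun g z hz => ⟨h.cov.act g _ hz.1, hz.2.1, (h.cov.inv g _ hz.1).trans hz.2.2⟩,
    fun _ _ _ => rfl⟩, fun z hz w hw e => ?_, fun y hy => ?_⟩
  · obtain ⟨h1, -, h3⟩ := fp_tan h.cov.smooth hp hu
    rw [d_snd] at h0
    rw [h0, map_zero] at h3
    exact WithLp.ofLp_injective 2 (Prod.ext (h.cov.inj _ hz.1 _ h1 h3) h0)
  · obtain ⟨u, hu, e⟩ := h.lift_snd hS hc hp hm hz hv
    exact ⟨u, hu, (d_snd z u).trans e⟩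
  · obtain ⟨g, hg⟩ := h.sep _ hz.1 _ hw.1 (hz.2.2.trans ((congrArg p e).trans hw.2.2.symm))
    exact ⟨g, WithLp.ofLp_injective 2 (Prod.ext hg e.symm)⟩
  · obtain ⟨b, hb, e⟩ := h.onto _ (hm y hy)
    exact ⟨WithLp.toLp 2 (b, y), ⟨hb, hy, e⟩, rfl⟩

/-- tangent vectors of `Qt` lift when `p` is a submersion -/
theorem IsQuot.lift_fst (h : IsQuot α Qt Q P) {n : ℕ} (hS : IsSubmanifold n S) (hc : IsCompact S)
    (hp : ContDiff ℝ ∞ p) (hm : ∀ y ∈ S, p y ∈ Q)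
    (hs : ∀ y ∈ S, ∀ w ∈ Tan Q (p y), ∃ v ∈ Tan S y, fderiv ℝ p y v = w) {z : Bs E V}
    (hz : z ∈ Fp Qt P S p) {u : E} (hu : u ∈ Tan Qt z.fst) :
    ∃ w ∈ Tan (Fp Qt P S p) z, w.fst = u := by
  obtain ⟨v, hv, e⟩ := hs _ hz.2.1 _ (hz.2.2 ▸ Lg.push h.cov.smooth h.cov.maps hu)
  obtain ⟨w, hw, e'⟩ := h.lift_snd hS hc hp hm hz hv
  obtain ⟨h1, -, h3⟩ := fp_tan h.cov.smooth hp hw
  obtain ⟨U, r, hr⟩ := h.cov.retT
  refine ⟨w, hw, sub_eq_zero.1 (h.cov.inj _ hz.1 _ ((hr.mem_Tan hz.1).2 ((Tn r z.fst).sub_mem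
    ((hr.mem_Tan hz.1).1 h1) ((hr.mem_Tan hz.1).1 hu))) ?_)⟩
  rw [map_sub, h3, e', e, sub_self]

end Vale.Agent.N220
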