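import Vale.Agent.P220Z.Abs.Sub
import Vale.Agent.P220Z.Cn.Img

/-!
# P220: a closed abstract manifold as a submanifold of a Euclidean space
-/

open Set Filter Topology
open scoped ContDiff Manifold

namespace Vale.Agent.N220

open Vale.Agent.P220.R2 Vale.Agent.P220.R2.H57 Vale.Agent.P220Z.Abs

variable {F : Type} [NormedAddCommGroup F] [NormedSpace ℝ F] [FiniteDimensional ℝ F]
  {V : Type} [NormedAddCommGroup V] [NormedSpace ℝ V] [FiniteDimensional ℝ V]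
  {N : Type} [TopologicalSpace N] [ChartedSpace F N] [IsManifold 𝓘(ℝ, F) ∞ N] {j : N → V}

theorem loc_inv (hj : ContMDiff 𝓘(ℝ, F) 𝓘(ℝ, V) ∞ j) (he : IsEmbedding j) (x : N)
    (hi : Function.Injective (mfderiv 𝓘(ℝ, F) 𝓘(ℝ, V) j x)) :
    ∃ (k : F → V) (m : V → F), ContDiff ℝ ∞ k ∧ ContDiff ℝ ∞ m ∧
      m (j x) = extChartAt 𝓘(ℝ, F) x x ∧
      (∀ᶠ u in 𝓝 (extChartAt 𝓘(ℝ, F) x x), k u = j ((extChartAt 𝓘(ℝ, F) x).symm u) ∧ m (k u) = u) ∧
      ∀ᶠ w in 𝓝 (j x), ∀ y, j y = w → (extChartAt 𝓘(ℝ, F) x).symm (m w) = y ∧ k (m w) = w := by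
  set φ := extChartAt 𝓘(ℝ, F) x with hφ
  have hT := (isOpen_extChartAt_target (I := 𝓘(ℝ, F)) x).mem_nhds (mem_extChartAt_target x)
  obtain ⟨k, hk, k1⟩ := H481.exists_germ_ext (f := j ∘ φ.symm) hT
    fun y hy => (loc_smooth hj x hy).contDiffWithinAt
  obtain ⟨O, hO, m₀, hm₀, m1⟩ := exists_leftInv hk (x₀ := φ x) fun v hv => hi (by
    rw [k1.fderiv_eq] at hv
    exact ((loc_self hj x v).symm.trans hv).trans (map_zero _).symm)
  obtain ⟨m, hm, m2⟩ := H481.exists_germ_ext hO hm₀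
  have h1 : ∀ᶠ u in 𝓝 (φ x), k u = j (φ.symm u) ∧ m (k u) = u := by
    filter_upwards [k1, m1, hk.continuous.continuousAt.eventually m2] with u a1 a2 a3
    exact ⟨a1, a3.trans a2⟩
  have h2 : ∀ᶠ y in 𝓝 x, φ.symm (m (j y)) = y ∧ k (m (j y)) = j y ∧ m (j y) = φ y := by
    filter_upwards [(continuousAt_extChartAt (I := 𝓘(ℝ, F)) x).eventually h1,
      extChartAt_source_mem_nhds (I := 𝓘(ℝ, F)) x] with y a1 a2
    rw [φ.left_inv a2] at a1
    have a3 : m (j y) = φ y := a1.1 ▸ a1.2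
    rw [a3, φ.left_inv a2]
    exact ⟨rfl, a1.1, rfl⟩
  refine ⟨k, m, hk, hm, h2.self_of_nhds.2.2, h1, ?_⟩
  rw [he.isInducing.nhds_eq_comap, eventually_comap] at h2
  filter_upwards [h2] with w hw y hy
  exact hy ▸ ⟨(hw y hy).1, (hw y hy).2.1⟩

theorem range_sub (hj : ContMDiff 𝓘(ℝ, F) 𝓘(ℝ, V) ∞ j) (he : IsEmbedding j)
    (hi : ∀ x, Function.Injective (mfderiv 𝓘(ℝ, F) 𝓘(ℝ, V) j x)) :
    IsSubmanifold (Module.finrank ℝ F) (range j) := by
  rintro _ ⟨x, rfl⟩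
  obtain ⟨k, m, hk, hm, h0, h1, h2⟩ := loc_inv hj he x (hi x)
  set a := extChartAt 𝓘(ℝ, F) x x with ha
  have h3 : Tendsto m (𝓝 (j x)) (𝓝 a) := h0 ▸ hm.continuous.tendsto (j x)
  have hρ : H180.LocRet (range j) (j x) fun w => k (m w) :=
    ⟨⟨x, rfl⟩, hk.comp hm, (h3.eventually h1).mono fun w a => ⟨_, a.1.symm⟩,
      h2.mono fun w a ⟨y, hy⟩ => (a y hy).2⟩
  obtain ⟨T, hT, hT2⟩ := exists_projection (Tn (fun w => k (m w)) (j x))
  obtain ⟨Θ, k1, k2, k3, k4, -, -⟩ := hρ.exists_chart hT hT2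
  refine ⟨Θ, _, k1, k2, k3, ?_, k4⟩
  have e0 : k a = j x := h0 ▸ (h2.self_of_nhds x rfl).2
  have dk : HasFDerivAt k (fderiv ℝ k a) a := (hk.differentiable (by simp) _).hasFDerivAt
  have dm : HasFDerivAt m (fderiv ℝ m (j x)) (j x) := (hm.differentiable (by simp) _).hasFDerivAt
  have d1 : ∀ v, fderiv ℝ m (j x) (fderiv ℝ k a v) = v := fun v =>
    congrArg (fun C : F →L[ℝ] F => C v) (((e0 ▸ dm : HasFDerivAt m _ (k a)).comp a dk).unique
      ((hasFDerivAt_id a).congr_of_eventuallyEq (h1.mono fun _ b => b.2)))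
  have d2 : ∀ v, fderiv ℝ (fun w => k (m w)) (j x) v = fderiv ℝ k a (fderiv ℝ m (j x) v) :=
    fun v => congrArg (fun C : V →L[ℝ] V => C v)
      ((h0 ▸ dk : HasFDerivAt k _ (m (j x))).comp (j x) dm).fderiv
  have e1 : Tn (fun w => k (m w)) (j x) = LinearMap.range (fderiv ℝ k a : F →ₗ[ℝ] V) := by
    ext v
    rw [mem_Tn, d2]
    constructor
    · exact fun h => ⟨_, h⟩
    · rintro ⟨u, rfl⟩
      exact congrArg _ (d1 u)
  rw [e1, LinearMap.finrank_range_of_inj]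
  exact Function.LeftInverse.injective d1

theorem exists_whit (F N : Type) [NormedAddCommGroup F] [NormedSpace ℝ F] [FiniteDimensional ℝ F]
    [TopologicalSpace N] [ChartedSpace F N] [IsManifold 𝓘(ℝ, F) ∞ N] [T2Space N] [CompactSpace N]
    [ConnectedSpace N] :
    ∃ (K : ℕ) (S U : Set (EuclideanSpace ℝ (Fin K))) (r : _ → _) (j : N → _) (R : _ → N),
      Emb F S U r j R ∧ IsClosedManifold (Module.finrank ℝ F) S := by
  obtain ⟨K, j, hj, he, hi⟩ := exists_embedding_euclidean_of_compact (I := 𝓘(ℝ, F)) (M := N)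
  have h1 := range_sub hj he.isEmbedding hi
  have h2 := isCompact_range hj.continuous
  obtain ⟨U, r, hr, -⟩ := exists_ret h1 h2
  have h3 : ∀ y ∈ U, j (Function.invFun j (r y)) = r y := fun y hy =>
    Function.invFun_eq (hr.maps y hy)
  refine ⟨K, range j, U, r, j, fun w => Function.invFun j (r w), ⟨hr, hj, he.isEmbedding,
    fun x => ⟨x, rfl⟩, fun y hy => ?_, fun x => ?_, h3⟩, h1, h2, isConnected_range hj.continuous⟩
  · obtain ⟨x, hx⟩ := hr.maps y hy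
    obtain ⟨k, m, -, hm, h0, -, h4⟩ := loc_inv hj he.isEmbedding x (hi x)
    have h5 : Tendsto r (𝓝 y) (𝓝 (j x)) := hx ▸ hr.smooth.continuous.tendsto y
    have h6 : ContMDiffAt 𝓘(ℝ, F) 𝓘(ℝ, F) ∞ (extChartAt 𝓘(ℝ, F) x).symm (m (r y)) := by
      rw [← hx, h0]
      exact symm_smooth x (mem_extChartAt_target x)
    refine (h6.comp y (hm.comp hr.smooth).contDiffAt.contMDiffAt).congr_of_eventuallyEq ?_
    filter_upwards [h5.eventually h4, hr.isOpen.mem_nhds hy] with w a1 a2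
    exact (a1 _ (h3 w a2)).1.symm
  · rw [hr.fix _ ⟨x, rfl⟩]
    exact Function.leftInverse_invFun he.injective x

variable {W : Type} [NormedAddCommGroup W] [NormedSpace ℝ W] {S U : Set V} {r : V → V} {R : V → N}

omit [FiniteDimensional ℝ F] [IsManifold 𝓘(ℝ, F) ∞ N] in
/-- smooth maps extend to the ambient space -/
theorem exists_ext (h : Emb F S U r j R) {f : N → W} (hf : ContMDiff 𝓘(ℝ, F) 𝓘(ℝ, W) ∞ f) :
    ∃ g : V → W, ContDiff ℝ ∞ g ∧ (∀ x, g (j x) = f x) ∧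
      ∀ x v, fderiv ℝ g (j x) (mvfderiv 𝓘(ℝ, F) j x v) = mvfderiv 𝓘(ℝ, F) f x v := by
  obtain ⟨g, hg, h1⟩ := glue h.ret.isClosed (f ∘ R) fun y hy =>
    ⟨U, h.ret.isOpen.mem_nhds (h.ret.sub hy), f ∘ R,
      fun w hw => ((hf _).comp w (h.sR w hw)).contDiffAt.contDiffWithinAt, fun _ _ _ => rfl⟩
  have h2 : ∀ x, g (j x) = f x := fun x => (h1 _ (h.mem x)).trans (congrArg f (h.Rj x))
  refine ⟨g, hg, h2, fun x v => ?_⟩
  have h3 := mfderiv_comp x ((hg.contMDiff (j x)).mdifferentiableAt (by simp))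
    ((h.sj x).mdifferentiableAt (by simp))
  rw [mfderiv_eq_fderiv, show g ∘ j = f from funext h2] at h3
  exact (congrArg (fun C : F →L[ℝ] W => C v) h3).symm

end Vale.Agent.N220
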