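import Vale.Agent.N220.Pull
import Vale.Agent.N220.Whit
import Vale.Agent.N220.Conn
import Vale.Agent.N220.Defs
import Vale.Agent.P220I10.Main

/-!
# P220: the exotic Lagrangian stays exotic under pull-back; all dimensions from 33 on
-/

open Set Filter Topology
open scoped ContDiff Manifold

set_option linter.unusedSectionVars false

namespace Vale.Agent.N220

open Vale.Agent.P220.R2 Vale.Agent.P220Z Vale.Agent.P220I

variable {E : Type} [NormedAddCommGroup E] [NormedSpace ℝ E] [FiniteDimensional ℝ E]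
  {V : Type} [NormedAddCommGroup V] [InnerProductSpace ℝ V] [FiniteDimensional ℝ V]
  {Q : Type} [TopologicalSpace Q] [ChartedSpace E Q] [IsManifold 𝓘(ℝ, E) ∞ Q] [T2Space Q]
  {S U : Set V} {r : V → V} {j : Q → V} {R : V → Q}

theorem exotic_of (h : Abs.Emb E S U r j R) {n : ℕ} (hn : Module.finrank ℝ E = n)
    (hS : H57.IsClosedManifold n S) {L : Set (V × V)} (hL : H57.IsExactLagrangian n S L)
    (hH : ¬ H57.HamIsotopicToZero S L) :
    IsExotic E {z : Cot E Q | Abs.Ps (E := E) j z ∈ L} := by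
  obtain ⟨M, _, _, _, _, _, _, U', r', i, R', h'⟩ := Abs.exists_emb hn hL.closed
  obtain ⟨f, hf, he⟩ := hL.exact
  obtain ⟨om, ho, -⟩ := (liouville (E := E) (Q := Q)).2.1
  have h4 := h.lag h' hL.sub hf he
  refine ⟨om, ho, ⟨M, _, ‹_›, ‹_›, ‹_›, _, ‹_›, fun x => Abs.Th E j R (i x),
    ⟨h4.1, h4.2, h4.3, fun x u v => (val_om ho _ _ _).trans (h4.4 x u v), h4.5⟩, ?_⟩,
    fun ⟨H, φ, a, b, c⟩ => hH (Top.HamIsoG.toZero hS ?_)⟩
  · ext z
    constructor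
    · rintro ⟨x, rfl⟩
      exact mem_of_eq_of_mem (s := L) (h.Ps_Th (hL.sub (h'.mem x))) (h'.mem x)
    · intro hz
      obtain ⟨x, hx⟩ : Abs.Ps (E := E) j z ∈ range i := h'.range_eq ▸ hz
      exact ⟨x, (congrArg (Abs.Th E j R) hx).trans (h.Th_Ps z)⟩
  · have h1 := h.ham (L := {z : Cot E Q | Abs.Ps (E := E) j z ∈ L})
      ⟨H, φ, ⟨a.1, a.2⟩, (flow_iff ho H φ).1 b, c⟩
    have h2 : Abs.Ps (E := E) j '' {z : Cot E Q | Abs.Ps (E := E) j z ∈ L} = L := by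
      refine subset_antisymm (image_subset_iff.2 fun _ a => a) fun y hy => ?_
      have h3 := h.Ps_Th (hL.sub hy)
      exact ⟨Abs.Th E j R y, mem_of_eq_of_mem (s := L) h3 hy, h3⟩
    exact h2 ▸ h1

omit [FiniteDimensional ℝ E] [T2Space Q] in
theorem IsExotic.not_nearby {L : Set (Cot E Q)} (h : IsExotic E L) : ¬ Nearby E Q := by
  obtain ⟨om, ho, ⟨M, _, _, _, _, _, _, ι, h1, rfl⟩, h2⟩ := h
  exact fun h3 => h2 (h3 om ho M ι h1)

variable {F : Type} [NormedAddCommGroup F] [NormedSpace ℝ F] [FiniteDimensional ℝ F]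
  {W : Type} [NormedAddCommGroup W] [InnerProductSpace ℝ W] [FiniteDimensional ℝ W]
  {N : Type} [TopologicalSpace N] [ChartedSpace F N] [IsManifold 𝓘(ℝ, F) ∞ N] [T2Space N]
  {S' U' : Set W} {r' : W → W} {i : N → W} {R' : W → N} {p : N → Q} {g : W → V}

theorem d_comp (h : Abs.Emb E S U r j R) (hp : ContMDiff 𝓘(ℝ, F) 𝓘(ℝ, E) ∞ p) (x : N)
    (v : TangentSpace 𝓘(ℝ, F) x) : mvfderiv 𝓘(ℝ, F) (j ∘ p) x v =
      mvfderiv 𝓘(ℝ, E) j (p x) (mfderiv 𝓘(ℝ, F) 𝓘(ℝ, E) p x v) :=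
  congrArg (fun C : F →L[ℝ] V => C v) (mfderiv_comp x ((h.sj _).mdifferentiableAt (by simp))
    ((hp x).mdifferentiableAt (by simp)))

theorem pull_eq (h : Abs.Emb E S U r j R) (h' : Abs.Emb F S' U' r' i R')
    (hp : ContMDiff 𝓘(ℝ, F) 𝓘(ℝ, E) ∞ p) (g1 : ∀ x, g (i x) = (j ∘ p) x)
    (g2 : ∀ x v, fderiv ℝ g (i x) (mvfderiv 𝓘(ℝ, F) i x v) = mvfderiv 𝓘(ℝ, F) (j ∘ p) x v)
    {L : Set (V × V)} (hL : L ⊆ H57.Cot S) :
    pullBack E F p {z : Cot E Q | Abs.Ps (E := E) j z ∈ L} =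
      {w : Cot F N | Abs.Ps (E := F) i w ∈ pbL S' g L} := by
  ext w
  constructor
  · rintro ⟨ξ, h1, h2⟩
    refine ⟨h'.Ps_mem w, (Abs.Ps (E := E) j ⟨p w.1, ξ⟩).2, (g1 w.1).symm ▸ h1, fun v hv => ?_⟩
    obtain ⟨u, rfl⟩ := h'.dj_surj w.1 hv
    refine (h'.Ps_inner w u).trans ((congrArg (fun C : F →L[ℝ] ℝ => C u) h2).trans ?_)
    exact (h.Ps_inner ⟨p w.1, ξ⟩ _).symm.trans
      (congrArg (inner ℝ _) ((g2 w.1 u).trans (d_comp h hp w.1 u)).symm)
  · rintro ⟨-, η, h1, h2⟩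
    have h3 : (j (p w.1), η) ∈ L :=
      mem_of_eq_of_mem (congrArg (fun y => (y, η)) (g1 w.1).symm) h1
    have h4 : ∀ q, q = p w.1 → Abs.Ps (E := E) j
        ⟨q, (Abs.flat η).comp (mvfderiv 𝓘(ℝ, E) j q)⟩ = (j (p w.1), η) →
        Abs.Ps (E := E) j ⟨p w.1, (Abs.flat η).comp (mvfderiv 𝓘(ℝ, E) j (p w.1))⟩ ∈ L := by
      rintro _ rfl e
      exact e.symm ▸ h3
    refine ⟨(Abs.flat η).comp (mvfderiv 𝓘(ℝ, E) j (p w.1)),
      h4 _ (h.Rj _) (h.Ps_Th (hL h3)), ContinuousLinearMap.ext fun u => ?_⟩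
    refine (h'.Ps_inner w u).symm.trans ((h2 _ (Abs.tan_of h'.sj h'.mem w.1 u)).trans ?_)
    exact congrArg (inner ℝ η) ((g2 w.1 u).trans (d_comp h hp w.1 u))

theorem split_of [CompactSpace N] [ConnectedSpace N] (h : Abs.Emb E S U r j R)
    (h' : Abs.Emb F S' U' r' i R') {n : ℕ} (hS : H57.IsClosedManifold n S') (hp : IsSplit E F p)
    (hg : ContDiff ℝ ∞ g) (g1 : ∀ x, g (i x) = (j ∘ p) x)
    (g2 : ∀ x v, fderiv ℝ g (i x) (mvfderiv 𝓘(ℝ, F) i x v) = mvfderiv 𝓘(ℝ, F) (j ∘ p) x v) :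
    ∃ s, Split n S' S g s := by
  obtain ⟨s, hs, hps⟩ := hp.sec
  obtain ⟨σ, hσ, s1, -⟩ := exists_ext h (h'.sj.comp hs)
  have a1 : ∀ y ∈ S', ∃ x, i x = y := fun y hy => ⟨_, h'.jR' hy⟩
  have a2 : ∀ y ∈ S, ∃ x, j x = y := fun y hy => ⟨_, h.jR' hy⟩
  refine ⟨σ, hS.sub, hS.compact, hg, hσ, fun y hy => ?_, fun y hy => ?_, fun y hy => ?_,
    fun y hy w hw => ?_, fun y hy => ?_⟩
  · obtain ⟨x, rfl⟩ := a1 y hy
    exact g1 x ▸ h.mem _
  · obtain ⟨q, rfl⟩ := a2 y hy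
    exact s1 q ▸ h'.mem _
  · obtain ⟨q, rfl⟩ := a2 y hy
    rw [s1, Function.comp_apply, g1, Function.comp_apply, hps]
  · obtain ⟨x, rfl⟩ := a1 y hy
    obtain ⟨u, rfl⟩ := h.dj_surj (p x) (g1 x ▸ hw)
    obtain ⟨t, rfl⟩ := hp.surj x u
    exact ⟨_, Abs.tan_of h'.sj h'.mem x t, (g2 x t).trans (d_comp h hp.smooth x t)⟩
  · obtain ⟨q, rfl⟩ := a2 y hy
    have h1 : {y | y ∈ S' ∧ g y = j q} = i '' (p ⁻¹' {q}) := by
      ext y
      constructor
      · rintro ⟨b1, b2⟩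
        obtain ⟨x, rfl⟩ := a1 y b1
        exact ⟨x, h.emb.injective ((g1 x).symm.trans b2), rfl⟩
      · rintro ⟨x, hx, rfl⟩
        exact ⟨h'.mem x, (g1 x).trans (congrArg j hx)⟩
    rw [h1]
    exact (sub_conn hp.smooth hp.surj hs.continuous hps q).image _ h'.sj.continuous.continuousOn

theorem quot_of {G : Type} [Group G] [Finite G] {A : Type} [NormedAddCommGroup A]
    [InnerProductSpace ℝ A] [FiniteDimensional ℝ A] {α : G →* (A ≃ₗᵢ[ℝ] A)} {Qt : Set A}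
    {P : A → V} (hq : IsQuot α Qt S P) (hf : ∀ g, ∀ z ∈ Qt, α g z = z → g = 1)
    (h : Abs.Emb E S U r j R) {X : Type} [TopologicalSpace X] (e : X ≃ₜ Qt) :
    ∃ (_ : MulAction G X) (π : X → Q), IsQuotientCoveringMap π G := by
  have : CompactSpace Qt := isCompact_iff_compactSpace.1 hq.cov.cptT
  have : CompactSpace X := e.symm.compactSpace
  have : T2Space X := e.symm.t2Space
  let act : MulAction G X :=
    { smul := fun g x => e.symm ⟨α g (e x), hq.cov.act g _ (e x).2⟩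
      one_smul := fun x => e.symm_apply_eq.2 (Subtype.ext (by simp))
      mul_smul := fun g g' x => congrArg e.symm (Subtype.ext (by
        change α (g * g') (e x) = α g (e (e.symm _))
        rw [e.apply_symm_apply, map_mul]
        rfl)) }
  have h1 : ∀ (g : G) (x : X), ((e (g • x) : Qt) : A) = α g (e x) := fun g x =>
    congrArg Subtype.val (e.apply_symm_apply _)
  have : ContinuousConstSMul G X := ⟨fun g => e.symm.continuous.comp
    (((α g).continuous.comp (continuous_subtype_val.comp e.continuous)).subtype_mk _)⟩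
  have : IsCancelSMul G X := isCancelSMul_iff_eq_one_of_smul_eq.2 fun g x a =>
    hf g _ (e x).2 ((h1 g x).symm.trans (by rw [a]))
  have h2 : ∀ x : X, j (R (P (e x))) = P (e x) := fun x => h.jR' (hq.cov.maps _ (e x).2)
  have h3 : Continuous fun x : X => R (P (e x)) := h.emb.continuous_iff.2
    ((hq.cov.smooth.continuous.comp (continuous_subtype_val.comp e.continuous)).congr
      fun x => (h2 x).symm)
  have h4 : Function.Surjective fun x : X => R (P (e x)) := fun q => by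
    obtain ⟨b, hb, a⟩ := hq.onto _ (h.mem q)
    exact ⟨e.symm ⟨b, hb⟩, by simp only [e.apply_symm_apply, a, h.Rj]⟩
  refine ⟨act, _, (h3.isClosedMap.isQuotientMap h3
    h4).isQuotientCoveringMap_of_properlyDiscontinuousSMul fun {x y} => ⟨fun a => ?_, ?_⟩⟩
  · obtain ⟨g, hg⟩ := hq.sep _ (e x).2 _ (e y).2 ((h2 x).symm.trans ((congrArg j a).trans (h2 y)))
    exact ⟨g, e.injective (Subtype.ext ((h1 g y).trans hg))⟩
  · rintro ⟨g, rfl⟩
    exact congrArg R ((congrArg P (h1 g y)).trans (hq.cov.inv g _ (e y).2))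

/-- the product of the three spheres -/
abbrev Spheres (a b : ℕ) : Type :=
  Metric.sphere (0 : EuclideanSpace ℂ (Fin a)) 1 × Metric.sphere (0 : EuclideanSpace ℂ (Fin b)) 1 ×
    Metric.sphere (0 : EuclideanSpace ℝ (Fin 14)) 1

theorem exists_homeo (a b : ℕ) : Nonempty (Spheres a b ≃ₜ Cn.QtOf Hs.UU (BB a b)) := by
  let κ : Hs.UU ≃ₗᵢ[ℝ] EuclideanSpace ℝ (Fin 14) :=
    ((stdOrthonormalBasis ℝ Hs.UU).reindex (finCongr finrank_UU)).repr
  let e : Spheres a b ≃ Cn.QtOf Hs.UU (BB a b) :=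
    { toFun := fun x => ⟨WithLp.toLp 2 (WithLp.toLp 2 (x.1.1, x.2.1.1), κ.symm x.2.2.1),
        ⟨norm_eq_of_mem_sphere _, norm_eq_of_mem_sphere _⟩,
        (κ.symm.norm_map _).trans (norm_eq_of_mem_sphere _)⟩
      invFun := fun z => (⟨z.1.fst.fst, mem_sphere_zero_iff_norm.2 z.2.1.1⟩,
        ⟨z.1.fst.snd, mem_sphere_zero_iff_norm.2 z.2.1.2⟩,
        ⟨κ z.1.snd, mem_sphere_zero_iff_norm.2 ((κ.norm_map _).trans z.2.2)⟩)
      left_inv := fun x => Prod.ext rfl (Prod.ext rfl (Subtype.ext (κ.apply_symm_apply _)))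
      right_inv := fun z => Subtype.ext (WithLp.ofLp_injective 2
        (Prod.ext rfl (κ.symm_apply_apply _))) }
  have he : Continuous e := Continuous.subtype_mk ((WithLp.prod_continuous_toLp 2 _ _).comp
    (((WithLp.prod_continuous_toLp 2 _ _).comp (by fun_prop)).prodMk
      (κ.symm.continuous.comp (by fun_prop)))) _
  exact ⟨he.homeoOfEquivCompactToT2⟩

theorem stable {a b : ℕ} (ha : 2 ≤ a) (hb : 9 ≤ b) (e : Module.finrank ℝ E = 2 * a + 2 * b + 11) :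
    ∃ (Q : Type) (_ : TopologicalSpace Q) (_ : T2Space Q) (_ : CompactSpace Q)
      (_ : ConnectedSpace Q) (_ : ChartedSpace E Q) (_ : IsManifold 𝓘(ℝ, E) ∞ Q),
      IsQuotient (EuclideanSpace ℂ (Fin a)) (EuclideanSpace ℂ (Fin b))
        (EuclideanSpace ℝ (Fin 14)) Q ∧ StablyExotic E Q := by
  obtain ⟨hQt, hf, E', _, _, _, S, P, L, ι, hS, H⟩ := exists_data ha hb
  obtain ⟨Q, _, _, _, _, _, _, U, r, j, R, h⟩ := Abs.exists_emb e hS
  obtain ⟨κ⟩ := exists_homeo a b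
  refine ⟨Q, _, ‹_›, ‹_›, ‹_›, _, ‹_›, quot_of H.quot hf h κ, _,
    exotic_of h e hS (H.lag hQt.sub) H.not_ham, fun F _ _ _ N _ _ _ _ _ _ p hp => ?_⟩
  obtain ⟨K, S', U', r', i, R', h', hS'⟩ := exists_whit F N
  obtain ⟨g, hg, g1, g2⟩ := exists_ext h' (h.sj.comp hp.smooth)
  obtain ⟨s, hs⟩ := split_of h h' hS' hp hg g1 g2
  obtain ⟨h1, h2⟩ := H.stable hs
  rw [pull_eq h h' hp.smooth g1 g2 H.sub]
  exact exotic_of h' rfl hS' h1 h2

theorem flows (F N : Type) [NormedAddCommGroup F] [NormedSpace ℝ F] [FiniteDimensional ℝ F]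
    [TopologicalSpace N] [T2Space N] [CompactSpace N] [ConnectedSpace N] [ChartedSpace F N]
    [IsManifold 𝓘(ℝ, F) ∞ N] : Flows F N := by
  obtain ⟨K, S, U, r, j, R, h, -⟩ := exists_whit F N
  exact fun om ho H a => (h.flow ⟨a.1, a.2⟩).imp fun φ => (flow_iff ho H φ).2

theorem all_dim (hn : 33 ≤ Module.finrank ℝ E) :
    ∃ (Q : Type) (_ : TopologicalSpace Q) (_ : T2Space Q) (_ : CompactSpace Q)
      (_ : ConnectedSpace Q) (_ : ChartedSpace E Q) (_ : IsManifold 𝓘(ℝ, E) ∞ Q),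
      ¬ Nearby E Q := by
  obtain ⟨V, _, _, _, S, L, hS, h1, h2⟩ := exists_dim hn
  obtain ⟨Q, _, _, _, _, _, _, U, r, j, R, h⟩ := Abs.exists_emb (E := E) rfl hS
  exact ⟨Q, _, ‹_›, ‹_›, ‹_›, _, ‹_›, (exotic_of h rfl hS h1 h2).not_nearby⟩

end Vale.Agent.N220
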