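import Vale.Agent.N220.Data

/-!
# P220: the data pull back under submersions with a section
-/

open Set Filter Topology
open scoped ContDiff RealInnerProductSpace

set_option linter.unusedSectionVars false

namespace Vale.Agent.N220

open Vale.Agent.P220.R2 Vale.Agent.P220.R2.H57 Vale.Agent.P220Z Vale.Agent.P220Z.Per
  Vale.Agent.P220Z.Cn Vale.Agent.P220Z.Top Vale.Agent.P220Z.Def

variable {E : Type} [NormedAddCommGroup E] [InnerProductSpace ℝ E] [FiniteDimensional ℝ E]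
  {E' : Type} [NormedAddCommGroup E'] [InnerProductSpace ℝ E'] [FiniteDimensional ℝ E']
  {V : Type} [NormedAddCommGroup V] [InnerProductSpace ℝ V] [FiniteDimensional ℝ V]
  {U : Type} [NormedAddCommGroup U] [InnerProductSpace ℝ U] [FiniteDimensional ℝ U]

/-- the pull-back of a set of covectors -/
def pbL (S : Set V) (p : V → E') (L : Set (E' × E')) : Set (V × V) :=
  {ζ | ζ ∈ Cot S ∧ ∃ ξ, (p ζ.1, ξ) ∈ L ∧ ∀ v ∈ Tan S ζ.1, ⟪ζ.2, v⟫ = ⟪ξ, fderiv ℝ p ζ.1 v⟫}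

/-- the pull-back of a family -/
def pbF (V : Type) (F : E × U → ℝ) : Bs E V × U → ℝ := fun y => F (y.1.fst, y.2)

/-- `p` is a submersion of the closed manifold `S` to `Q` with connected fibres and the
section `s` -/
structure Split (n : ℕ) (S : Set V) (Q : Set E') (p : V → E') (s : E' → V) : Prop where
  sub : IsSubmanifold n S
  cpt : IsCompact S
  sp : ContDiff ℝ ∞ p
  ss : ContDiff ℝ ∞ s
  mp : ∀ y ∈ S, p y ∈ Q
  ms : ∀ q ∈ Q, s q ∈ S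
  sec : ∀ q ∈ Q, p (s q) = q
  surj : ∀ y ∈ S, ∀ w ∈ Tan Q (p y), ∃ v ∈ Tan S y, fderiv ℝ p y v = w
  fib : ∀ q ∈ Q, IsPreconnected {y | y ∈ S ∧ p y = q}

variable {α : G5 →* (E ≃ₗᵢ[ℝ] E)} {ρ : G5 →* (U ≃ₗᵢ[ℝ] U)} {Qt : Set E} {Q : Set E'}
  {P : E → E'} {L : Set (E' × E')} {ι : EB5 → E} {φ : U → ℝ} {n : ℕ} {S : Set V} {p : V → E'}
  {s : E' → V} {a m : ℝ} {F : E × U → ℝ}

theorem sm_pb : ContDiff ℝ ∞ fun y : Bs E V × U => (y.1.fst, y.2) :=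
  (sm_fst.comp contDiff_fst).prodMk contDiff_snd

theorem d_pbF (hF : ContDiff ℝ ∞ F) (z u : Bs E V) (x w : U) :
    fderiv ℝ (pbF V F) (z, x) (u, w) = fderiv ℝ F (z.fst, x) (u.fst, w) := by
  have h := (hF.differentiable (by simp) (z.fst, x)).hasFDerivAt.comp (z, x)
    (((WithLp.fstL 2 ℝ E V).prodMap (ContinuousLinearMap.id ℝ U)).hasFDerivAt)
  exact congrArg (fun C : Bs E V × U →L[ℝ] ℝ => C (u, w)) h.fderiv

theorem adm_pb (hA : IsAdm α Qt a ρ F) :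
    IsAdm (prodRep α (1 : G5 →* (V ≃ₗᵢ[ℝ] V))) (Fp Qt P S p) a ρ (pbF V F) :=
  ⟨hA.smooth.comp sm_pb, fun g z hz x => hA.inv g z.fst hz.1 x,
    hA.far.imp fun _ h => ⟨h.1, h.2.imp fun _ h z hz x hx => h z.fst hz.1 x hx⟩,
    fun z hz x hx => hA.gap z.fst hz.1 x hx⟩

theorem gen_pb (h : IsQuot α Qt Q P) (hs : Split n S Q p s) (hF : ContDiff ℝ ∞ F)
    (hG : IsGen Qt P L a m F) :
    IsGen (Fp Qt P S p) (fun z => z.snd) (pbL S p L) a m (pbF V F) := by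
  have hq := h.fp hs.sub hs.cpt hs.sp hs.mp
  have cov : ∀ z ∈ Fp Qt P S p, ∀ x ξ η, Cov Qt P F z.fst x ξ →
      (∀ v ∈ Tan S z.snd, ⟪η, v⟫ = ⟪ξ, fderiv ℝ p z.snd v⟫) →
      Cov (Fp Qt P S p) (fun z => z.snd) (pbF V F) z x η := by
    intro z _ x ξ η h1 h2 u hu
    obtain ⟨a1, a2, a3⟩ := fp_tan h.cov.smooth hs.sp hu
    rw [d_snd, d_pbF hF, h2 _ a2, ← a3, h1 _ a1]
  refine ⟨fun z hz x hx => hG.gap z.fst hz.1 x hx, fun z hz x hx hw => ?_,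
    fun z hz x x' hx hx' hw hw' e => hG.inj z.fst hz.1 x x' hx hx' hw hw' fun u hu => ?_,
    fun z hz η hη => ?_, fun z hz x hx hw v hv => hG.reg z.fst hz.1 x hx hw v fun u hu w => ?_⟩
  · obtain ⟨ξ, h1, h2⟩ := hG.mem z.fst hz.1 x hx hw
    obtain ⟨η, h3, h4⟩ := Lg.exists_cov hq.cov hz
      (((innerSL ℝ ξ).comp (fderiv ℝ p z.snd)).comp (WithLp.sndL 2 ℝ E V))
    have h5 : ∀ v ∈ Tan S z.snd, ⟪η, v⟫ = ⟪ξ, fderiv ℝ p z.snd v⟫ := fun v hv => by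
      obtain ⟨u, hu, rfl⟩ := h.lift_snd hs.sub hs.cpt hs.sp hs.mp hz hv
      have h6 := h4 u hu
      rwa [d_snd] at h6
    exact ⟨η, ⟨⟨hz.2.1, h3⟩, ξ, hz.2.2 ▸ h1, h5⟩, cov z hz x ξ η h2 h5⟩
  · obtain ⟨w, hw, rfl⟩ := h.lift_fst hs.sub hs.cpt hs.sp hs.mp hs.surj hz hu
    have h1 := e w hw
    rwa [d_pbF hF, d_pbF hF] at h1
  · obtain ⟨-, ξ, h1, h2⟩ := hη
    obtain ⟨x, h3, h4, h5⟩ := hG.onto z.fst hz.1 ξ (hz.2.2 ▸ h1)
    exact ⟨x, h3, h4, cov z hz x ξ η h5 h2⟩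
  · obtain ⟨u', hu', rfl⟩ := h.lift_fst hs.sub hs.cpt hs.sp hs.mp hs.surj hz hu
    have h1 := hv u' hu' w
    simp only [d_pbF hF] at h1
    exact h1

theorem conn_pb (h : IsQuot α Qt Q P) (hs : Split n S Q p s) (hS : IsConnected (Sig Qt a F)) :
    IsConnected (Sig (Fp Qt P S p) a (pbF V F)) := by
  let e := (WithLp.prodContinuousLinearEquiv 2 ℝ E V).symm
  let σ : E × U → Bs E V × U := fun y => (e (y.1, s (P y.1)), y.2)
  have hσ : Continuous σ := (e.continuous.comp (continuous_fst.prodMk (hs.ss.continuous.comp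
    (h.cov.smooth.continuous.comp continuous_fst)))).prodMk continuous_snd
  have h1 : σ '' Sig Qt a F ⊆ Sig (Fp Qt P S p) a (pbF V F) := by
    rintro _ ⟨y, hy, rfl⟩
    exact ⟨⟨hy.1, hs.ms _ (h.cov.maps _ hy.1), (hs.sec _ (h.cov.maps _ hy.1)).symm⟩, hy.2⟩
  obtain ⟨y₀, hy₀⟩ := hS.nonempty
  refine ⟨⟨_, h1 ⟨y₀, hy₀, rfl⟩⟩, isPreconnected_of_forall (σ y₀) fun w hw => ?_⟩
  have hb : (w.1.fst, w.2) ∈ Sig Qt a F := ⟨hw.1.1, hw.2⟩
  have hq := h.cov.maps _ hw.1.1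
  let k : V → Bs E V × U := fun y => (e (w.1.fst, y), w.2)
  have hk : Continuous k :=
    (e.continuous.comp (continuous_const.prodMk continuous_id)).prodMk continuous_const
  refine ⟨σ '' Sig Qt a F ∪ k '' {y | y ∈ S ∧ p y = P w.1.fst}, union_subset h1 ?_,
    Or.inl ⟨y₀, hy₀, rfl⟩, Or.inr ⟨w.1.snd, ⟨hw.1.2.1, hw.1.2.2.symm⟩, rfl⟩,
    IsPreconnected.union (σ (w.1.fst, w.2)) ⟨_, hb, rfl⟩ ⟨_, ⟨hs.ms _ hq, hs.sec _ hq⟩, rfl⟩
      (hS.isPreconnected.image _ hσ.continuousOn) ((hs.fib _ hq).image _ hk.continuousOn)⟩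
  rintro _ ⟨y, hy, rfl⟩
  exact ⟨⟨hw.1.1, hy.1, hy.2.symm⟩, hw.2⟩

theorem Data.pull (h : Data α ρ Qt Q P L ι φ) (hs : Split n S Q p s) :
    Data (prodRep α (1 : G5 →* (V ≃ₗᵢ[ℝ] V))) ρ (Fp Qt P S p) S (fun z => z.snd) (pbL S p L)
      (fun b => WithLp.toLp 2 (ι b, s (P (ι b)))) φ := by
  refine ⟨h.reg, h.inv, h.no, h.quot.fp hs.sub hs.cpt hs.sp hs.mp,
    (WithLp.prodContinuousLinearEquiv 2 ℝ E V).symm.contDiff.comp
      (h.sι.prodMk (hs.ss.comp (h.quot.cov.smooth.comp h.sι))), fun b hb => ?_, fun g b hb => ?_,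
    fun _ a => a.1, ?_, fun C => ?_⟩
  · have hq := h.quot.cov.maps _ (h.mι b hb)
    exact ⟨h.mι b hb, hs.ms _ hq, (hs.sec _ hq).symm⟩
  · rw [h.eι g b hb, h.quot.cov.inv g _ (h.mι b hb)]
    rfl
  · obtain ⟨a, F, hA, hG, hS⟩ := h.conn
    exact ⟨a, _, adm_pb hA, gen_pb h.quot hs hA.smooth hG, conn_pb h.quot hs hS⟩
  · obtain ⟨a, F, hA, hG, hb⟩ := h.fam C
    obtain ⟨δ, hδ, κ, hκ, R, hR, hc⟩ := hb.col
    exact ⟨a, _, adm_pb hA, gen_pb h.quot hs hA.smooth hG, fun z hz => hb.low z.fst hz.1,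
      fun z hz => hb.lt z.fst hz.1, fun z hz => hb.gt z.fst hz.1, δ, hδ, κ, hκ, R, hR,
      fun z hz => hc z.fst hz.1⟩

/-- The embedded form of the theorem. -/
theorem Data.stable (h : Data α ρ Qt Q P L ι φ) (hs : Split n S Q p s) :
    IsExactLagrangian n S (pbL S p L) ∧ ¬ HamIsotopicToZero S (pbL S p L) :=
  ⟨(h.pull hs).lag (h.quot.fp_sub hs.sub hs.cpt hs.sp hs.mp), (h.pull hs).not_ham⟩

open Vale.Agent.P220Z.Hs in
theorem exists_data {a b : ℕ} (ha : 2 ≤ a) (hb : 9 ≤ b) :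
    IsClosedManifold (2 * a + 2 * b + 11) (QtOf UU (BB a b)) ∧
    (∀ g, ∀ z ∈ QtOf UU (BB a b), prodRep (βB a b) rhoU g z = z → g = 1) ∧
    ∃ (E' : Type) (_ : NormedAddCommGroup E') (_ : InnerProductSpace ℝ E')
      (_ : FiniteDimensional ℝ E') (Q : Set E') (P : Bs (EB a b) UU → E') (L : Set (E' × E'))
      (ι : EB5 → Bs (EB a b) UU), IsClosedManifold (2 * a + 2 * b + 11) Q ∧
      Data (prodRep (βB a b) rhoU) rhoU (QtOf UU (BB a b)) Q P L ι phi0 := by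
  have hB := closedB (a := a) (b := b) (by omega) (by omega)
  obtain ⟨s, τ, hl⟩ := labB (a := a) (b := b) (by omega) (by omega)
  obtain ⟨c, c1, c2, c3⟩ := exists_map ha hb
  rw [show 2 * a + 2 * b + 11 = 2 * a + 2 * b - 2 + (12 + 1) by omega]
  exact ⟨stBase _ UU _ 12 _ hB finrank_UU, fun g z hz h => hl.free g _ hz.1 (congrArg WithLp.fst h),
    data_of hB hl c1 c2 c3⟩

/-- the identity -/
theorem split_id (hQ : IsClosedManifold n Q) : Split n Q Q id id :=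
  ⟨hQ.sub, hQ.compact, contDiff_id, contDiff_id, fun _ h => h, fun _ h => h, fun _ _ => rfl,
    fun y _ w hw => ⟨w, hw, by simp⟩,
    fun q _ => Subsingleton.isPreconnected fun _ a _ b => a.2.trans b.2.symm⟩

/-- the product with a sphere -/
theorem split_sphere (hQ : IsClosedManifold n Q) {k : ℕ} (hU : Module.finrank ℝ U = k + 2) {θ : U}
    (hθ : ‖θ‖ = 1) :
    Split (n + (k + 1)) (QtOf U Q) Q (fun z => z.fst) fun q => WithLp.toLp 2 (q, θ) := by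
  have h := stBase E' U n k Q hQ hU
  let e := (WithLp.prodContinuousLinearEquiv 2 ℝ E' U).symm
  refine ⟨h.sub, h.compact, sm_fst, e.contDiff.comp (contDiff_id.prodMk contDiff_const),
    fun _ a => a.1, fun _ a => ⟨a, hθ⟩, fun _ _ => rfl,
    fun y hy w hw => ⟨_, Fm.tan_b hy hw, d_fst _ _⟩, fun q hq => ?_⟩
  have h1 : {y | y ∈ QtOf U Q ∧ y.fst = q} = (fun x => e (q, x)) '' {x : U | ‖x‖ = 1} := by
    ext y
    constructor
    · rintro ⟨a, rfl⟩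
      exact ⟨y.snd, a.2, rfl⟩
    · rintro ⟨x, hx, rfl⟩
      exact ⟨⟨hq, hx⟩, rfl⟩
  rw [h1]
  exact (Bf.sphere_closed U k hU).conn.isPreconnected.image _
    (e.continuous.comp (continuous_const.prodMk continuous_id)).continuousOn

/-- counterexamples in all dimensions from 33 on -/
theorem exists_dim {n : ℕ} (hn : 33 ≤ n) :
    ∃ (V : Type) (_ : NormedAddCommGroup V) (_ : InnerProductSpace ℝ V)
      (_ : FiniteDimensional ℝ V) (S : Set V) (L : Set (V × V)), IsClosedManifold n S ∧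
      IsExactLagrangian n S L ∧ ¬ HamIsotopicToZero S L := by
  obtain ⟨-, -, E', _, _, _, Q, P, L, ι, hQ, h⟩ := exists_data (le_refl 2) (le_refl 9)
  rcases hn.eq_or_lt with rfl | hn
  · exact ⟨E', inferInstance, inferInstance, inferInstance, Q, _, hQ, h.stable (split_id hQ)⟩
  obtain ⟨k, rfl⟩ : ∃ k, n = 33 + (k + 1) := ⟨n - 34, by omega⟩
  have hU : Module.finrank ℝ (EuclideanSpace ℝ (Fin (k + 2))) = k + 2 := finrank_euclideanSpace_fin
  exact ⟨_, inferInstance, inferInstance, inferInstance, _, _, stBase E' _ 33 k Q hQ hU,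
    h.stable (split_sphere hQ hU (θ := EuclideanSpace.single 0 1) (by simp))⟩

end Vale.Agent.N220
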